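import Crest.Agent.X262.Lift8.Abs
import Crest.Agent.X262.St91.Defs
import Crest.Agent.X277.Cns.Prod

/-!
# Row 262, G4 / VAN + LIFT (helper8), part 0: the interfaces

* `ZO U`     : `U` is a Zariski open set of closed points;
* `VanPStmt` : `H¹(K + N) = 0` (Čech, any open cover) for `N` free and big;
* `chD`, `Bl h P`, `BlStmt` : the blow-up of the diagonal of `P × P`;
* `NuStmt`   : the order along the diagonal.
-/

set_option autoImplicit false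

open scoped KaehlerDifferential

noncomputable section

namespace Crest.Agent.X262.Lift8

open Crest.Agent.X277 Crest.Agent.X277.Lef Crest.Agent.X277.AN.G1 Crest.Agent.X277.BD
open Crest.Agent.X277.BD.Br (On oP kP At)
open Crest.Agent.X262.Mv99 (nS)
open Crest.Agent.X262.St91 (dgl)
open Crest.Agent.R274.Prod1_134 (IsPF)

variable {F L : Type} [Field F] [Algebra ℂ F] [Field L] [Algebra ℂ L]

/-- Zariski open sets of closed points -/
def ZO {P : PModel ℂ F} (U : Set (Pts P)) : Prop :=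
  ∀ x ∈ U, ∃ T : Finset F, (∀ f ∈ T, f ∈ (lp x).O) ∧
    ∀ x' : Pts P, (∀ f ∈ T, f ∈ (lp x').O) → x' ∈ U

/-- VAN: Kawamata–Viehweg vanishing of `H¹` -/
def VanPStmt : Prop := ∀ (F : Type) [Field F] [Algebra ℂ F] (n : ℕ) (P : PModel ℂ F)
  (b : Module.Basis (Fin n) F Ω[F⁄ℂ]), ∀ N ∈ On P, Free N → Big N →
    ∀ (ι : Type) (U : ι → Set (Pts P)), (∀ c, ZO (U c)) → (∀ x, ∃ c, x ∈ U c) →
      Van U (nS (kP P b + N))

/-- the chart `O ⊗ O [I / e]` of the blow-up of the diagonal -/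
def chD (α β : F →ₐ[ℂ] L) (O : Subalgebra ℂ F) (e : L) : Subalgebra ℂ L :=
  Algebra.adjoin ℂ (α '' O ∪ β '' O ∪ (fun c => (α c - β c) / e) '' O)

/-- the blow-up of the diagonal of `P × P` -/
structure Bl {α β : F →ₐ[ℂ] L} (h : IsPF α β) (P : PModel ℂ F) where
  /-- the model -/
  Y : PModel ℂ L
  /-- the first projection -/
  p : Pts Y → Pts P
  /-- the second projection -/
  q : Pts Y → Pts P
  dom : ∀ y, (lp (Cns.mk h (p y) (q y))).Dom (lp y)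
  off : ∀ y, p y ≠ q y → lp y = lp (Cns.mk h (p y) (q y))
  sur : ∀ x x', x ≠ x' → ∃ y, p y = x ∧ q y = x'
  on : ∀ y, p y = q y → ∃ a ∈ (lp (p y)).O, α a - β a ≠ 0 ∧
    (lp y).Of (chD α β (lp (p y)).O (α a - β a))

/-- the canonical class of the blow-up -/
def Bl.Can {α β : F →ₐ[ℂ] L} {h : IsPF α β} {P : PModel ℂ F} (B : Bl h P) : Prop :=
  ∀ (b : Module.Basis (Fin 2) F Ω[F⁄ℂ]), ∃ b' : Module.Basis (Fin 4) L Ω[L⁄ℂ],
    Lin (kP B.Y b') (pb α (kP P b) + pb β (kP P b) + dgl α β P.y)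

/-- BL: the blow-up of the diagonal of the square of a surface -/
def BlStmt : Prop := ∀ (F L : Type) [Field F] [Algebra ℂ F] [Field L] [Algebra ℂ L]
  (α β : F →ₐ[ℂ] L) (h : IsPF α β) (P : PModel ℂ F) (_ : Module.Basis (Fin 2) F Ω[F⁄ℂ]),
    ∃ B : Bl h P, B.Can

/-- NU: the order along the diagonal -/
def NuStmt : Prop := ∀ (F L : Type) [Field F] [Algebra ℂ F] [Field L] [Algebra ℂ L]
  (α β : F →ₐ[ℂ] L) (_ : IsPF α β) (P : PModel ℂ F) (_ : Module.Basis (Fin 2) F Ω[F⁄ℂ]),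
    ∃ ν : Valuation L (WithZero (Multiplicative ℤ)), (∀ f, f ≠ 0 → ν (α f) = 1) ∧
      (∀ f, f ≠ 0 → ν (β f) = 1) ∧
      (∀ (j : ℕ) (f : L), (∀ V : RZ ℂ L, (∀ g, α g ∈ V.1) → (∀ g, β g ∈ V.1) →
        V.v f ≤ (-(j • dgl α β P.y)).val V) → ν f ≤ WithZero.exp (-(j : ℤ))) ∧
      ∀ a ∈ On P, ∀ (j : ℕ), ∀ σ ∈ (pb α a + pb β a).Sec, ν σ ≤ WithZero.exp (-(j : ℤ)) →
        σ ∈ (pb α a + pb β a - j • dgl α β P.y).Sec

end Crest.Agent.X262.Lift8
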