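import Crest.Agent.X262.Mv99.Move

/-!
# Row 262, G4 / LIFT (helper8), part 1: the abstract `t`-adic lifting lemma

`M z` are local lattices, `Φ c` are the moves of the charts `U c`; the deformed lattice at `z ∈ U c`
is `(ser (M z)).map (Φ c)`.

* `Uni Ψ`    : unipotent `X`-linear maps; `Uni.sat`, `Uni.closed`, `Uni.const_mem`, `Uni.map_eq`;
* `Van U M`  : every cocycle of the cover `U` with values in `M` is a coboundary;
* `lift_abs` : `Van U M` implies that every global section lifts.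
-/

set_option autoImplicit false

open PowerSeries

noncomputable section

namespace Crest.Agent.X262.Lift8

open Crest.Agent.X262.Mv99

variable {L : Type*} [CommRing L]

/-- `X`-linear maps which are the identity modulo `X` -/
structure Uni (Ψ : L⟦X⟧ →+ L⟦X⟧) : Prop where
  xl : XL Ψ
  c0 : ∀ a, constantCoeff (Ψ (C a)) = a

theorem uni_act {k : Type*} [CommRing k] [Algebra k L] (m : Mv k L) : Uni m.act :=
  ⟨m.act_xl, m.act0⟩

theorem uni_ψ {k : Type*} [CommRing k] [Algebra k L] (m : Mv k L) :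
    Uni (m.ψ : L⟦X⟧ →+ L⟦X⟧) := ⟨m.xl, m.ψ0⟩

variable {Ψ : L⟦X⟧ →+ L⟦X⟧} {M : AddSubgroup L} {f g : L⟦X⟧}

theorem Uni.const (h : Uni Ψ) (f : L⟦X⟧) : constantCoeff (Ψ f) = constantCoeff f :=
  h.xl.const h.c0 f

theorem Uni.surj (h : Uni Ψ) (g : L⟦X⟧) : ∃ f, Ψ f = g := (h.xl.bij h.c0).2 g

theorem Uni.mem_map (h : Uni Ψ) : Ψ f ∈ (ser M).map Ψ ↔ f ∈ ser M :=
  AddSubgroup.mem_map_iff_mem (h.xl.inj h.c0)

theorem Uni.const_mem (h : Uni Ψ) (hf : f ∈ (ser M).map Ψ) : constantCoeff f ∈ M := by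
  obtain ⟨g, hg, rfl⟩ := hf
  rw [h.const]
  exact Mv99.const_mem hg

theorem Uni.pow_mul_mem (h : Uni Ψ) (hf : f ∈ (ser M).map Ψ) (n : ℕ) :
    X ^ n * f ∈ (ser M).map Ψ := by
  obtain ⟨g, hg, rfl⟩ := hf
  exact ⟨_, X_pow_mul_mem_ser hg n, h.xl.pow n g⟩

theorem Uni.sat (h : Uni Ψ) {n : ℕ} (hf : X ^ n * f ∈ (ser M).map Ψ) : f ∈ (ser M).map Ψ := by
  obtain ⟨g, rfl⟩ := h.surj f
  rw [← h.xl.pow, h.mem_map] at hf
  exact h.mem_map.2 (mem_ser_of_X_pow_mul hf)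

theorem Uni.closed (h : Uni Ψ) (hf : ∀ n, ∃ g ∈ (ser M).map Ψ, X ^ n ∣ f - g) :
    f ∈ (ser M).map Ψ := by
  obtain ⟨f, rfl⟩ := h.surj f
  refine h.mem_map.2 (mem_ser_of_approx fun n => ?_)
  obtain ⟨_, ⟨g, hg, rfl⟩, hd⟩ := hf n
  exact ⟨g, hg, h.xl.dvd_of_dvd h.c0 (by rwa [map_sub])⟩

/-- a move which preserves the lattice does not deform it -/
theorem Uni.map_eq (h : Uni Ψ) (hM : ∀ a ∈ M, Ψ (C a) ∈ ser M) : (ser M).map Ψ = ser M := by
  refine le_antisymm ?_ fun g hg => h.xl.surj h.c0 hM hg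
  rintro _ ⟨g, hg, rfl⟩
  exact h.xl.mem hM hg

theorem coeff_X_pow_mul_self (n : ℕ) (w : L⟦X⟧) : coeff n (X ^ n * w) = constantCoeff w := by
  have := coeff_X_pow_mul w n 0
  rwa [zero_add, coeff_zero_eq_constantCoeff_apply] at this

/-- the residue of an approximate section in a chart -/
theorem Uni.res_mem (h : Uni Ψ) {n : ℕ} {f' : L⟦X⟧} (hf : Ψ f' = f) (hg : g ∈ (ser M).map Ψ)
    (hd : X ^ n ∣ f - g) : coeff n f' - coeff n (f - g) ∈ M := by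
  obtain ⟨g', hg', rfl⟩ := hg
  obtain ⟨w, hw⟩ := h.xl.dvd_of_dvd h.c0 (f := f' - g') (n := n) (by rwa [map_sub, hf])
  have h1 : f - Ψ g' = X ^ n * Ψ w := by rw [← hf, ← map_sub, hw, h.xl.pow]
  have h2 : coeff n f' = coeff n g' + constantCoeff w := by
    rw [← coeff_X_pow_mul_self n w, ← hw, map_sub, add_sub_cancel]
  rw [h1, coeff_X_pow_mul_self, h.const, h2, add_sub_cancel_right]
  exact hg' n

/-- every cocycle is a coboundary -/
def Van {ι Z : Type*} (U : ι → Set Z) (M : Z → AddSubgroup L) : Prop :=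
  ∀ r : ι → L, (∀ c c' z, z ∈ U c → z ∈ U c' → r c - r c' ∈ M z) →
    ∃ s, ∀ c z, z ∈ U c → s - r c ∈ M z

/-- **the abstract lifting lemma** -/
theorem lift_abs {ι Z : Type*} {U : ι → Set Z} {M : Z → AddSubgroup L}
    {Φ : ι → L⟦X⟧ →+ L⟦X⟧} (hΦ : ∀ c, Uni (Φ c))
    (cmp : ∀ c c' z, z ∈ U c → z ∈ U c' → (ser (M z)).map (Φ c) = (ser (M z)).map (Φ c'))
    (van : Van U M) {a : L} (ha : ∀ c z, z ∈ U c → a ∈ M z) :
    ∃ f : L⟦X⟧, constantCoeff f = a ∧ ∀ c z, z ∈ U c → f ∈ (ser (M z)).map (Φ c) := by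
  let Inv : ℕ → L⟦X⟧ → Prop := fun n f =>
    ∀ c z, z ∈ U c → ∃ g ∈ (ser (M z)).map (Φ c), X ^ n ∣ f - g
  have step : ∀ n f, Inv n f → ∃ f', Inv (n + 1) f' ∧ X ^ n ∣ f' - f := by
    intro n f hf
    choose f' hf' using fun c => (hΦ c).surj f
    obtain ⟨s, hs⟩ := van (fun c => coeff n (f' c)) fun c c' z hc hc' => by
      obtain ⟨g, hg, hd⟩ := hf c z hc
      have h1 := (hΦ c).res_mem (hf' c) hg hd
      have h2 := (hΦ c').res_mem (hf' c') (cmp c c' z hc hc' ▸ hg) hd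
      simpa using (M z).sub_mem h1 h2
    refine ⟨f - X ^ n * C s, fun c z hc => ?_, by simp⟩
    obtain ⟨g, hg, hd⟩ := hf c z hc
    have h1 := (M z).neg_mem ((M z).add_mem (hs c z hc) ((hΦ c).res_mem (hf' c) hg hd))
    rw [sub_add_sub_cancel, neg_sub] at h1
    refine ⟨_, add_mem hg ((hΦ c).pow_mul_mem ⟨_, C_mem_ser h1, rfl⟩ n), ?_⟩
    have h2 := dvd_succ_of hd
    have h3 := (hΦ c).xl.dvd_succ (hΦ c).c0 n (C (coeff n (f - g) - s))
    rw [(hΦ c).xl.pow] at h3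
    convert dvd_sub h2 h3 using 1
    rw [map_sub]
    ring
  choose! F hF using step
  let s : ℕ → L⟦X⟧ := fun n => Nat.rec (C a) (fun n f => F (n + 1) f) n
  have hs : ∀ n, Inv (n + 1) (s n) := by
    intro n
    induction n with
    | zero =>
      intro c z hc
      refine ⟨Φ c (C a), ⟨_, C_mem_ser (ha c z hc), rfl⟩, ?_⟩
      rw [zero_add, pow_one, X_dvd_iff, map_sub, (hΦ c).c0]
      simp [s]
    | succ n ih => exact (hF _ _ ih).1
  have h1 : ∀ n, X ^ (n + 1) ∣ s (n + 1) - s n := fun n => (hF _ _ (hs n)).2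
  have h2 : ∀ n, X ^ n ∣ s (n + 1) - s n := fun n => (pow_dvd_pow _ n.le_succ).trans (h1 n)
  refine ⟨lim s, ?_, fun c z hc => (hΦ c).closed fun n => ?_⟩
  · have h3 : X ^ 1 ∣ lim s - s 1 + (s 1 - s 0) := dvd_add (dvd_lim h2 1) (h1 0)
    rw [sub_add_sub_cancel, pow_one, X_dvd_iff, map_sub, sub_eq_zero] at h3
    rw [h3]
    simp [s]
  · obtain ⟨g, hg, hd⟩ := hs n c z hc
    refine ⟨g, hg, ?_⟩
    simpa using dvd_add (dvd_lim h2 n) ((pow_dvd_pow _ n.le_succ).trans hd)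

end Crest.Agent.X262.Lift8
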