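import Crest.Agent.X262.Lift8.Abs
import Crest.Agent.X277.BD.BrA

/-!
# Row 262, G4 / VAN (helper8), part 2: cocycles die after a twist

* `vS G V`      : the local sections of the b-divisor `G` at the valuation ring `V`;
* `exists_tw`   : local sections extend after a twist;
* `exists_pu`   : partition of unity for a generating family of sections;
* `Cov P U`     : `U` is a cover of the space of valuations which comes from a Zariski cover of `P`;
* `exists_kill` : a cocycle dies after multiplication by a power of a hyperplane section.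
-/

set_option autoImplicit false

open Filter Topology Set

noncomputable section

namespace Crest.Agent.X262.Lift8

open Crest.Agent.X277 Crest.Agent.X277.Lef Crest.Agent.X277.AN.G1 Crest.Agent.X277.BD
open Crest.Agent.X277.BD.Br (At oP kP)
open Crest.Agent.X277.Cns (KV Ov)

section Gen

variable {k F : Type} [Field k] [Field F] [Algebra k F]

/-- local sections at a valuation ring -/
def vS (G : BD k F) (V : RZ k F) : AddSubgroup F where
  carrier := {f | V.v f ≤ G.val V}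
  zero_mem' := by simp
  add_mem' ha hb := (V.v.map_add _ _).trans (max_le ha hb)
  neg_mem' ha := by rwa [mem_ofPred_eq, Valuation.map_neg]

theorem mem_vS {G : BD k F} {V : RZ k F} {f : F} : f ∈ vS G V ↔ V.v f ≤ G.val V := Iff.rfl

variable {H a : BD k F} {g x : F}

/-- local sections extend after a twist -/
theorem exists_tw (hH : Free H) (hg : g ∈ H.Sec) (h0 : g ≠ 0)
    (h : ∀ V : RZ k F, V.v g = H.val V → V.v x ≤ a.val V) :
    ∃ N0 : ℕ, ∀ N, N0 ≤ N → x * g ^ N ∈ (a + N • H).Sec := by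
  obtain ⟨r, s, hs0, h1, h2⟩ := hH.exists_fam
  have h3 : ∀ j, ∃ N0 : ℕ, ∀ N, N0 ≤ N → ∀ V : RZ k F,
      (∀ y ∈ insert (g / s j) (range fun i => s i / s j), y ∈ V.1) →
      V.v ((g / s j) ^ N * x) ≤ a.val V := fun j =>
    Br.exists_pow_le (mem_insert _ _) fun V hV hi => h V (by
      obtain ⟨i, h4⟩ := h2 V
      have h5 := (RZ.le_iff (hs0 j)).2 (hV _ (mem_insert_of_mem _ ⟨i, rfl⟩))
      rw [inv_div, ← RZ.le_iff h0] at hi
      exact (hg V).antisymm (h4 ▸ h5.trans hi))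
  choose N0 h4 using h3
  refine ⟨Finset.univ.sup N0, fun N hN V => ?_⟩
  obtain ⟨j, hj⟩ := h2 V
  have h5 := h4 j N ((Finset.le_sup (Finset.mem_univ j)).trans hN) V (by
    rintro y (rfl | ⟨i, rfl⟩)
    · exact (RZ.le_iff (hs0 j)).1 (hj ▸ hg V)
    · exact (RZ.le_iff (hs0 j)).1 (hj ▸ h1 i V))
  rw [val_add, val_nsmul, ← hj, ← map_pow, ← div_le_iff₀ (RZ.pos (pow_ne_zero N (hs0 j))),
    ← map_div₀, mul_div_assoc, ← div_pow, mul_comm]
  exact h5

/-- partition of unity -/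
theorem exists_pu {ι : Type} [Fintype ι] {s : ι → F} (h1 : ∀ i, s i ∈ H.Sec)
    (h2 : ∀ V : RZ k F, ∃ i, V.v (s i) = H.val V) (hg : g ∈ H.Sec) (h0 : g ≠ 0) :
    ∃ (e : ℕ) (q : ι → F), (∀ i, q i ∈ (e • H).Sec) ∧ ∑ i, q i * s i = g ^ (e + 1) := by
  let R := Algebra.adjoin k (range fun i => s i / g)
  let w : ι → R.toSubring := fun i => ⟨s i / g, Algebra.subset_adjoin ⟨i, rfl⟩⟩
  have h3 : Ideal.span (range w) = ⊤ := by
    by_contra h3
    obtain ⟨V, h4, h5⟩ := Ideal.image_subset_nonunits_valuationSubring _ h3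
    let V' : RZ k F := ⟨V, KV.of_le (A := R) fun a ha => h4 ha⟩
    obtain ⟨i, hi⟩ := h2 V'
    have h6 : V'.v (s i / g) < 1 :=
      V.mem_nonunits_iff.1 (h5 ⟨w i, Ideal.subset_span ⟨i, rfl⟩, rfl⟩)
    rw [map_div₀, div_lt_one₀ (RZ.pos h0), hi] at h6
    exact h6.not_ge (hg V')
  obtain ⟨c, hc⟩ := Ideal.mem_span_range_iff_exists_fun.1 (h3 ▸ Submodule.mem_top :
    (1 : R.toSubring) ∈ Ideal.span (range w))
  have h4 : ∀ i, ∃ N0 : ℕ, ∀ N, N0 ≤ N → (c i : F) * g ^ N ∈ ((0 : BD k F) + N • H).Sec := fun i =>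
    exists_tw (free_of_fam h1 h2) hg h0 fun V hV => by
      rw [val_zero, RZ.le_one_iff]
      refine V.2.adjoin_le ?_ _ (c i).2
      rintro _ ⟨j, rfl⟩
      exact (RZ.le_iff h0).1 (hV ▸ h1 j V)
  choose N0 h5 using h4
  refine ⟨Finset.univ.sup N0, fun i => c i * g ^ Finset.univ.sup N0, fun i => by
    simpa using h5 i _ (Finset.le_sup (Finset.mem_univ i)), ?_⟩
  have h6 : ∑ i, (c i : F) * (s i / g) = 1 := by
    simpa [w] using congrArg (fun t : R.toSubring => (t : F)) hc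
  rw [← mul_one (g ^ (Finset.univ.sup N0 + 1)), ← h6, Finset.mul_sum]
  refine Finset.sum_congr rfl fun i _ => ?_
  field_simp
  ring

theorem eq_of_mul_eq {a' : BD k F} {g' : F} {V : RZ k F} (hg : g ∈ a.Sec) (hg' : g' ∈ a'.Sec)
    (h : V.v (g * g') = (a + a').val V) : V.v g = a.val V ∧ V.v g' = a'.val V := by
  rw [map_mul, val_add] at h
  constructor
  · by_contra h1
    exact (mul_lt_mul_of_lt_of_le_of_nonneg_of_pos (lt_of_le_of_ne (hg V) h1) (hg' V) zero_le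
      (a'.val_pos V)).ne h
  · by_contra h1
    exact (mul_lt_mul_of_le_of_lt_of_nonneg_of_pos (hg V) (lt_of_le_of_ne (hg' V) h1) zero_le
      (a.val_pos V)).ne h

/-- a cocycle for a cover by principal open sets dies after a twist -/
theorem exists_kill' {ι : Type} [Fintype ι] {s : ι → F} (h1 : ∀ i, s i ∈ H.Sec)
    (h2 : ∀ V : RZ k F, ∃ i, V.v (s i) = H.val V) (hg : g ∈ H.Sec) (h0 : g ≠ 0) {r : ι → F}
    (hr : ∀ i j (V : RZ k F), V.v (s i) = H.val V → V.v (s j) = H.val V → r i - r j ∈ vS a V) :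
    ∃ (e : ℕ) (r₀ : F), ∀ i (V : RZ k F), V.v (s i) = H.val V →
      g ^ e * (r₀ - r i) ∈ vS (a + e • H) V := by
  have hH := free_of_fam h1 h2
  have h3 : ∀ p : ι × ι, ∃ N0 : ℕ, ∀ N, N0 ≤ N →
      (r p.1 - r p.2) * (s p.1 * s p.2) ^ N ∈ (a + N • (H + H)).Sec := by
    rintro ⟨i, j⟩
    by_cases h4 : s i * s j = 0
    · exact ⟨1, fun N hN => by
        rw [h4, zero_pow (by omega), mul_zero]
        exact zero_mem _⟩
    · exact exists_tw (hH.add hH) (mul_mem_Sec (h1 i) (h1 j)) h4 fun V hV =>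
        hr i j V (eq_of_mul_eq (h1 i) (h1 j) hV).1 (eq_of_mul_eq (h1 i) (h1 j) hV).2
  choose N0 h4 using h3
  set M := Finset.univ.sup N0
  obtain ⟨e, q, h5, h6⟩ := exists_pu (H := M • H) (s := fun i => s i ^ M)
    (fun i => pow_mem_Sec (h1 i) M)
    (fun V => (h2 V).imp fun i hi => by rw [map_pow, hi, val_nsmul]) (pow_mem_Sec hg M)
    (pow_ne_zero M h0)
  refine ⟨M * (e + 1), (∑ i, q i * s i ^ M * r i) / (g ^ M) ^ (e + 1), fun j V hj => ?_⟩
  have h7 : g ^ (M * (e + 1)) * ((∑ i, q i * s i ^ M * r i) / (g ^ M) ^ (e + 1) - r j) =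
      ∑ i, q i * ((r i - r j) * s i ^ M) := by
    rw [pow_mul, mul_sub, mul_div_cancel₀ _ (pow_ne_zero _ (pow_ne_zero _ h0)), ← h6,
      Finset.sum_mul, ← Finset.sum_sub_distrib]
    exact Finset.sum_congr rfl fun i _ => by ring
  rw [h7]
  refine sum_mem fun i _ => ?_
  have h8 := h4 (i, j) M (Finset.le_sup (Finset.mem_univ _)) V
  rw [mul_pow, ← mul_assoc, map_mul, map_pow, hj, val_add, val_nsmul, val_add, mul_pow,
    ← mul_assoc, mul_le_mul_iff_left₀ (pow_pos (H.val_pos V) M)] at h8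
  have h9 := mul_le_mul' (h5 i V) h8
  rw [← map_mul] at h9
  refine h9.trans (le_of_eq ?_)
  simp only [val_add, val_nsmul, ← pow_mul]
  rw [mul_left_comm, ← pow_add, Nat.mul_succ]

end Gen

variable {F : Type} [Field F] [Algebra ℂ F] {P : PModel ℂ F}

variable (P) in
/-- covers of the space of valuations which are induced by Zariski covers of `P` -/
def Cov {ι : Type*} (U : ι → Set (RZ ℂ F)) : Prop :=
  ∀ x : Pts P, ∃ (c : ι) (T : Finset F), (∀ y ∈ T, y ∈ (lp x).O) ∧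
    ∀ V : RZ ℂ F, (∀ y ∈ T, y ∈ V.1) → V ∈ U c

theorem exists_den {i : Fin (P.N + 1)} {x : Pts P} (hi : x ∈ pat P i) {T : Finset F}
    (h1 : ∀ y ∈ T, y ∈ (lp x).O) : ∃ d ∈ P.A i, ev d x ≠ 0 ∧ ∀ V : RZ ℂ F,
      (∀ y ∈ P.A i, y ∈ V.1) → V.v d = 1 → ∀ y ∈ T, y ∈ V.1 := by
  classical
  choose! e he c hc h0 h3 using fun y (hy : y ∈ T) => (mem_lp_iff hi).1 (h1 y hy)
  refine ⟨∏ y ∈ T, c y, prod_mem hc, ?_, fun V hV hd y hy => ?_⟩
  · unfold ev
    rw [LP.v_prod T fun y hy => A_le hi (hc y hy)]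
    exact Finset.prod_ne_zero_iff.2 h0
  · rw [← Finset.mul_prod_erase T c hy] at hd
    have h5 : V.v (c y) ≤ 1 := RZ.le_one_iff.2 (hV _ (hc y hy))
    have h6 : V.v (∏ z ∈ T.erase y, c z) ≤ 1 := RZ.le_one_iff.2
      (hV _ (prod_mem fun z hz => hc z (Finset.mem_of_mem_erase hz)))
    have h7 : V.v (c y) = 1 := by
      refine le_antisymm h5 ?_
      rw [← hd, map_mul]
      exact mul_le_of_le_one_right' h6
    rw [← RZ.le_one_iff, ← mul_one (V.v y), ← h7, ← map_mul, h3 y hy, h7]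
    exact RZ.le_one_iff.2 (hV _ (he y hy))

/-- a cover is refined by a cover by principal open sets -/
theorem Cov.exists_fam {ι : Type*} {U : ι → Set (RZ ℂ F)} (hU : Cov P U) :
    ∃ (κ : Type) (_ : Fintype κ) (d : ℕ) (s : κ → F) (c : κ → ι), 0 < d ∧
      (∀ i, s i ∈ (d • oP P).Sec) ∧ (∀ V : RZ ℂ F, ∃ i, V.v (s i) = (d • oP P).val V) ∧
      ∀ i (V : RZ ℂ F), V.v (s i) = (d • oP P).val V → V ∈ U (c i) := by
  choose c T h1 h2 using hU
  choose i hi using fun x : Pts P => exists_pat x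
  choose d h3 h4 h5 using fun x => exists_den (hi x) (h1 x)
  choose N0 h6 using fun x => Br.exists_tw_mem (a := 0) (f := d x) (i := i x)
    fun V hV => by simpa using RZ.le_one_iff.2 (hV _ (h3 x))
  obtain ⟨X, -, hX⟩ := isCompact_univ.elim_nhds_subcover
    (fun x => {x' | x' ∈ pat P (i x) ∧ ev (d x) x' ≠ 0}) fun x _ =>
      inter_mem ((isOpen_pat P (i x)).mem_nhds (hi x)) ((isOpen_ev_ne _).mem_nhds (h4 x))
  have h7 : ∀ x : X, d x * P.y (i x) ^ X.sup N0 ∈ (X.sup N0 • oP P).Sec := fun x => by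
    simpa using h6 x _ (Finset.le_sup x.2)
  refine ⟨X, inferInstance, X.sup N0 + 1, fun x => d x * P.y (i x) ^ X.sup N0 * P.y (i x),
    fun x => c x, Nat.succ_pos _, fun x => ?_, fun V => ?_, fun x V hV => ?_⟩
  · rw [succ_nsmul]
    exact mul_mem_Sec (h7 x) (Br.y_mem_Sec _)
  · obtain ⟨x', hx'⟩ := Br.exists_ov' P V
    obtain ⟨x, hx, h8, h9⟩ := mem_iUnion₂.1 (hX (mem_univ x'))
    refine ⟨⟨x, hx⟩, ?_⟩
    change V.v (d x * P.y (i x) ^ X.sup N0 * P.y (i x)) = _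
    rw [mul_assoc, ← pow_succ]
    exact ((Br.at_y h8).nsmul _).mul_unit h9 V hx'
  · rw [succ_nsmul] at hV
    obtain ⟨h8, h9⟩ := eq_of_mul_eq (h7 x) (Br.y_mem_Sec _) hV
    rw [map_mul, map_pow, h9, val_nsmul,
      mul_left_eq_self₀, or_iff_left (pow_ne_zero _ (val_ne _ V))] at h8
    refine h2 x V (h5 x V (V.2.adjoin_le ?_) h8)
    rintro _ ⟨j, rfl⟩
    exact (RZ.le_iff (P.y_ne _)).1 (h9 ▸ Br.y_mem_Sec j V)

/-- **a cocycle dies after multiplication by a power of a hyperplane section** -/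
theorem exists_kill {ι : Type*} {U : ι → Set (RZ ℂ F)} (hU : Cov P U) {G : BD ℂ F} {r : ι → F}
    (hr : ∀ c c' V, V ∈ U c → V ∈ U c' → r c - r c' ∈ vS G V) {g : F} (hg : g ∈ (oP P).Sec)
    (h0 : g ≠ 0) : ∃ (e : ℕ) (r₀ : F), ∀ c V, V ∈ U c →
      g ^ e * (r₀ - r c) ∈ vS (G + e • oP P) V := by
  obtain ⟨κ, _, d, s, c, -, h1, h2, h3⟩ := hU.exists_fam
  obtain ⟨e, r₀, h4⟩ := exists_kill' (a := G) h1 h2 (pow_mem_Sec hg d) (pow_ne_zero d h0)
    (r := fun i => r (c i)) fun i j V hi hj => hr _ _ V (h3 i V hi) (h3 j V hj)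
  refine ⟨d * e, r₀, fun c' V hV => ?_⟩
  obtain ⟨i, hi⟩ := h2 V
  have h5 := h4 i V hi
  rw [← pow_mul, smul_smul, mul_comm e] at h5
  have h6 : g ^ (d * e) * (r (c i) - r c') ∈ vS (G + (d * e) • oP P) V := by
    rw [mem_vS, map_mul, val_add, mul_comm]
    exact mul_le_mul' (hr _ _ V (h3 i V hi) hV) (pow_mem_Sec hg _ V)
  simpa [mul_sub] using add_mem h5 h6

end Crest.Agent.X262.Lift8
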