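import Crest.Agent.X262.Lift8.Defs

/-!
# Row 262, G4 / LIFT (helper8), part 4: the geometry of the blow-up of the diagonal

* `at_of_le`, `at_mxf_of`, `ZO.inter`, `zo_at` : generalities;
* `Bl.at_box`, `Bl.at_off`, `Bl.On`, `Bl.On.at_dgl`, `Bl.On.at_sub`, `Bl.ne_iff` : local generators;
* `Bl.On.sub_swap`, `Bl.On.swap_mem`, `Bl.swap_mk` : the swap.
-/

set_option autoImplicit false

noncomputable section

namespace Crest.Agent.X262.Lift8

open Crest.Agent.X277 Crest.Agent.X277.Lef Crest.Agent.X277.AN.G1 Crest.Agent.X277.BD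
open Crest.Agent.X277.BD.Br (On oP kP At)
open Crest.Agent.X262.St91 (dgl wd)
open Crest.Agent.R274.Prod1_134 (IsPF)

variable {F L : Type} [Field F] [Algebra ℂ F] [Field L] [Algebra ℂ L]

section Gen

variable {P : PModel ℂ F} {x : Pts P} {a : BD ℂ F} {g : F}

theorem at_of_le {Q : PModel ℂ F} {y : Pts Q} (h : (lp x).O ≤ (lp y).O) (hg : At a x g) :
    At a y g := fun V hV => hg V fun f hf => hV f (h hf)

theorem at_mxf_of {ι : Type} [Fintype ι] {s : ι → F} (hg : g ≠ 0)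
    (h1 : ∀ l, s l / g ∈ (lp x).O) (h2 : ∃ l, ev (s l / g) x ≠ 0) : At (mxf ℂ s) x g := by
  obtain ⟨l, hl⟩ := h2
  have h0 : s l ≠ 0 := fun h => LP.ne_zero_of_ne hl (by rw [h, zero_div])
  refine (Br.at_mxf h0 fun j => ?_).of_ev hl
  rw [← div_div_div_cancel_right₀ hg]
  exact LP.div_mem (h1 j) hl

theorem ZO.inter {U U' : Set (Pts P)} (h : ZO U) (h' : ZO U') : ZO (U ∩ U') := by
  classical
  rintro x ⟨hx, hx'⟩
  obtain ⟨T, h1, h2⟩ := h x hx
  obtain ⟨T', h3, h4⟩ := h' x hx'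
  exact ⟨T ∪ T', fun f hf => (Finset.mem_union.1 hf).elim (h1 f) (h3 f), fun x' h5 =>
    ⟨h2 x' fun f hf => h5 f (Finset.mem_union_left _ hf),
      h4 x' fun f hf => h5 f (Finset.mem_union_right _ hf)⟩⟩

theorem zo_univ : ZO (Set.univ : Set (Pts P)) := fun _ _ => ⟨∅, by simp, by simp⟩

theorem zo_at (a : BD ℂ F) (g : F) : ZO {x : Pts P | At a x g} := by
  classical
  intro x h
  obtain ⟨T, h1, h2⟩ := Br.exists_finset_le (a := a) (S := (lp x).O) (u := g)
    fun V hV => (h V hV).le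
  obtain ⟨T', h3, h4⟩ := Br.exists_finset_le (a := -a) (S := (lp x).O) (u := g⁻¹)
    fun V hV => (At.neg h V hV).le
  refine ⟨T ∪ T', fun f hf => (Finset.mem_union.1 hf).elim (h1 f) (h3 f), fun x' h5 V hV =>
    le_antisymm (h2 V fun f hf => hV f (h5 f (Finset.mem_union_left _ hf))) ?_⟩
  have h6 := h4 V fun f hf => hV f (h5 f (Finset.mem_union_right _ hf))
  rwa [map_inv₀, val_neg, inv_le_inv₀ (RZ.pos (At.ne h)) (a.val_pos V)] at h6

end Gen

variable {α β : F →ₐ[ℂ] L} {h : IsPF α β} {P : PModel ℂ F}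

theorem left_mem_chD {O : Subalgebra ℂ F} {c : F} (hc : c ∈ O) (e : L) : α c ∈ chD α β O e :=
  Algebra.subset_adjoin (Or.inl (Or.inl ⟨c, hc, rfl⟩))

theorem right_mem_chD {O : Subalgebra ℂ F} {c : F} (hc : c ∈ O) (e : L) : β c ∈ chD α β O e :=
  Algebra.subset_adjoin (Or.inl (Or.inr ⟨c, hc, rfl⟩))

theorem div_mem_chD {O : Subalgebra ℂ F} {c : F} (hc : c ∈ O) (e : L) :
    (α c - β c) / e ∈ chD α β O e := Algebra.subset_adjoin (Or.inr ⟨c, hc, rfl⟩)

namespace Bl

variable (B : Bl h P) (y : Pts B.Y)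

theorem box_mul {a c : F} (ha : a ∈ (lp (B.p y)).O) (hc : c ∈ (lp (B.q y)).O) :
    α a * β c ∈ (lp y).O := (B.dom y).le (Cns.mem_mk h ha hc)

theorem ev_mul {a c : F} (ha : a ∈ (lp (B.p y)).O) (hc : c ∈ (lp (B.q y)).O) :
    ev (α a * β c) y = ev a (B.p y) * ev c (B.q y) :=
  ((B.dom y).eq _ (Cns.mem_mk h ha hc)).trans (Cns.ev_mk h ha hc)

theorem left_mem {a : F} (ha : a ∈ (lp (B.p y)).O) : α a ∈ (lp y).O := by
  simpa using B.box_mul y ha (one_mem _)

theorem right_mem {a : F} (ha : a ∈ (lp (B.q y)).O) : β a ∈ (lp y).O := by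
  simpa using B.box_mul y (one_mem _) ha

theorem ev_left {a : F} (ha : a ∈ (lp (B.p y)).O) : ev (α a) y = ev a (B.p y) := by
  simpa [ev] using B.ev_mul y ha (one_mem _)

theorem ev_right {a : F} (ha : a ∈ (lp (B.q y)).O) : ev (β a) y = ev a (B.q y) := by
  simpa [ev] using B.ev_mul y (one_mem _) ha

theorem at_box {M M' : BD ℂ F} {g g' : F} (hg : At M (B.p y) g) (hg' : At M' (B.q y) g') :
    At (pb α M + pb β M') y (α g * β g') :=
  at_of_le (B.dom y).le ((At.pb (Cns.fst_p P P h) (by rwa [Cns.fst_mk])).add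
    (At.pb (Cns.snd_p P P h) (by rwa [Cns.snd_mk])))

theorem at_left {M : BD ℂ F} {g : F} (hg : At M (B.p y) g) : At (pb α M) y (α g) := by
  simpa using B.at_box y hg (Br.at_zero _)

theorem at_right {M : BD ℂ F} {g : F} (hg : At M (B.q y) g) : At (pb β M) y (β g) := by
  simpa using B.at_box y (Br.at_zero _) hg

theorem p_mem_iff {i : Fin (P.N + 1)} : B.p y ∈ pat P i ↔ At (pb α (oP P)) y (α (P.y i)) := by
  refine ⟨fun hi => B.at_left y (Br.at_y hi), fun hi => ?_⟩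
  obtain ⟨j, hj⟩ := exists_pat (B.p y)
  have h1 := hi.ev_div_ne (B.at_left y (Br.at_y hj))
  rwa [← map_div₀, B.ev_left y (y_mem hj i), ← mem_pat_iff hj] at h1

theorem q_mem_iff {i : Fin (P.N + 1)} : B.q y ∈ pat P i ↔ At (pb β (oP P)) y (β (P.y i)) := by
  refine ⟨fun hi => B.at_right y (Br.at_y hi), fun hi => ?_⟩
  obtain ⟨j, hj⟩ := exists_pat (B.q y)
  have h1 := hi.ev_div_ne (B.at_right y (Br.at_y hj))
  rwa [← map_div₀, B.ev_right y (y_mem hj i), ← mem_pat_iff hj] at h1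

theorem wd_div (i j : Fin (P.N + 1)) (kl : Fin (P.N + 1) × Fin (P.N + 1)) :
    wd (fun i => α (P.y i)) (fun i => β (P.y i)) kl / (α (P.y i) * β (P.y j)) =
      α (P.y kl.1 / P.y i) * β (P.y kl.2 / P.y j) - α (P.y kl.2 / P.y i) * β (P.y kl.1 / P.y j) := by
  simp only [wd, map_div₀, div_mul_div_comm, sub_div]

variable {y}

/-- off the diagonal the exceptional divisor is trivial -/
theorem at_off (hy : B.p y ≠ B.q y) : At (dgl α β P.y) y 1 := by
  obtain ⟨i, hi⟩ := exists_pat (B.p y)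
  obtain ⟨j, hj⟩ := exists_pat (B.q y)
  have h1 := B.at_box y (Br.at_y hi) (Br.at_y hj)
  have h2 : At (mxf ℂ (wd (fun i => α (P.y i)) fun i => β (P.y i))) y (α (P.y i) * β (P.y j)) := by
    refine at_mxf_of h1.ne (fun kl => ?_) ?_
    · rw [wd_div]
      exact sub_mem (B.box_mul y (y_mem hi _) (y_mem hj _)) (B.box_mul y (y_mem hi _) (y_mem hj _))
    · by_contra h3
      push Not at h3
      have h4 : ∀ l, ev (P.y l / P.y j) (B.q y) =
          ev (P.y l / P.y i) (B.p y) * ev (P.y i / P.y j) (B.q y) := fun l => by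
        have h5 := h3 (i, l)
        rw [wd_div, ev, LP.v_sub (B.box_mul y (y_mem hi _) (y_mem hj _))
          (B.box_mul y (y_mem hi _) (y_mem hj _)), sub_eq_zero, ← ev, ← ev,
          B.ev_mul y (y_mem hi _) (y_mem hj _), B.ev_mul y (y_mem hi _) (y_mem hj _),
          div_self (P.y_ne i)] at h5
        simpa [ev] using h5
      have h5 : ev (P.y i / P.y j) (B.q y) ≠ 0 := fun h6 => by
        have h7 := h4 j
        rw [h6, mul_zero, div_self (P.y_ne j)] at h7
        simp [ev] at h7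
      refine hy (pt_ext hi ((mem_pat_iff hj).2 h5) fun l => ?_)
      rw [y_div j i l, ev, ev, LP.v_div (y_mem hj l) h5, eq_div_iff h5, ← y_div j i l]
      exact (h4 l).symm
  have h3 := h1.sub h2
  rwa [div_self h1.ne] at h3

/-- the local structure over the diagonal -/
structure On (y : Pts B.Y) (a : F) : Prop where
  eq : B.p y = B.q y
  mem : a ∈ (lp (B.p y)).O
  ne : α a - β a ≠ 0
  of : (lp y).Of (chD α β (lp (B.p y)).O (α a - β a))

theorem exists_on (hy : B.p y = B.q y) : ∃ a, B.On y a :=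
  (B.on y hy).imp fun _ h => ⟨hy, h.1, h.2.1, h.2.2⟩

variable {B} {a : F}

theorem On.div_mem (H : B.On y a) {c : F} (hc : c ∈ (lp (B.p y)).O) :
    (α c - β c) / (α a - β a) ∈ (lp y).O := H.of.le (div_mem_chD hc _)

theorem On.right_mem (H : B.On y a) {c : F} (hc : c ∈ (lp (B.p y)).O) : β c ∈ (lp y).O :=
  B.right_mem y (H.eq ▸ hc)

theorem On.e_mem (H : B.On y a) : α a - β a ∈ (lp y).O :=
  sub_mem (B.left_mem y H.mem) (H.right_mem H.mem)

theorem On.ev_e (H : B.On y a) : ev (α a - β a) y = 0 := by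
  rw [ev, LP.v_sub (B.left_mem y H.mem) (H.right_mem H.mem), ← ev, ← ev, B.ev_left y H.mem,
    B.ev_right y (H.eq ▸ H.mem), H.eq, sub_self]

theorem On.exists_ne (H : B.On y a) {i : Fin (P.N + 1)} (hi : B.p y ∈ pat P i) :
    ∃ l, ev ((α (P.y l / P.y i) - β (P.y l / P.y i)) / (α a - β a)) y ≠ 0 := by
  by_contra h1
  push Not at h1
  have h2 : ∀ c ∈ (lp (B.p y)).O, ∀ d ∈ (lp (B.p y)).O,
      ev ((α (c * d) - β (c * d)) / (α a - β a)) y =
        ev (α c) y * ev ((α d - β d) / (α a - β a)) y +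
          ev ((α c - β c) / (α a - β a)) y * ev (β d) y := fun c hc d hd => by
    unfold ev
    rw [← (lp y).v_mul (B.left_mem y hc) (H.div_mem hd),
      ← (lp y).v_mul (H.div_mem hc) (H.right_mem hd), ← (lp y).v_add
        (mul_mem (B.left_mem y hc) (H.div_mem hd)) (mul_mem (H.div_mem hc) (H.right_mem hd)),
      map_mul, map_mul]
    congr 1
    ring
  have h3 : ∀ c ∈ P.A i, ev ((α c - β c) / (α a - β a)) y = 0 := fun c hc => by
    induction hc using Algebra.adjoin_induction with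
    | mem c hc =>
      obtain ⟨l, rfl⟩ := hc
      exact h1 l
    | algebraMap c => simp [ev]
    | add c d hc hd h4 h5 =>
      have h6 := (lp y).v_add (H.div_mem (A_le hi hc)) (H.div_mem (A_le hi hd))
      rw [← add_div, ← add_sub_add_comm, ← map_add, ← map_add] at h6
      exact h6.trans (by rw [← ev, ← ev, h4, h5, add_zero])
    | mul c d hc hd h4 h5 => rw [h2 c (A_le hi hc) d (A_le hi hd), h4, h5, mul_zero, zero_mul,
        add_zero]
  obtain ⟨c, hc, d, hd, h4, h5⟩ := (mem_lp_iff hi).1 H.mem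
  have h6 := h2 a H.mem d (A_le hi hd)
  rw [h5, h3 c hc, h3 d hd, div_self H.ne, B.ev_right y (H.eq ▸ A_le hi hd), ← H.eq] at h6
  exact h4 (by simpa [ev] using h6.symm)

/-- over the diagonal `α a - β a` is an equation of the exceptional divisor -/
theorem On.at_dgl (H : B.On y a) : At (dgl α β P.y) y (α a - β a)⁻¹ := by
  obtain ⟨i, hi⟩ := exists_pat (B.p y)
  have h1 := B.at_box y (Br.at_y hi) (Br.at_y (H.eq ▸ hi))
  have h2 : At (mxf ℂ (wd (fun i => α (P.y i)) fun i => β (P.y i))) y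
      (α (P.y i) * β (P.y i) * (α a - β a)) := by
    refine at_mxf_of (mul_ne_zero h1.ne H.ne) (fun kl => ?_) ?_
    · rw [← div_div, wd_div]
      convert sub_mem (mul_mem (H.div_mem (y_mem hi kl.1)) (H.right_mem (y_mem hi kl.2)))
        (mul_mem (H.div_mem (y_mem hi kl.2)) (H.right_mem (y_mem hi kl.1))) using 1
      ring
    · obtain ⟨l, hl⟩ := H.exists_ne hi
      refine ⟨(l, i), ?_⟩
      rw [← div_div, wd_div, div_self (P.y_ne i)]
      simpa using hl
  have h3 := h1.sub h2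
  rwa [div_mul_eq_div_div, div_self h1.ne, one_div] at h3

theorem On.at_sub (H : B.On y a) {M : BD ℂ F} {g : F} (hg : At M (B.p y) g) (j : ℕ) :
    At (pb α M + pb β M - j • dgl α β P.y) y (α g * β g * (α a - β a) ^ j) := by
  have h1 := (B.at_box y hg (H.eq ▸ hg)).sub (H.at_dgl.nsmul j)
  rwa [inv_pow, div_inv_eq_mul] at h1

variable (B)

theorem at_sub_off (hy : B.p y ≠ B.q y) {M M' : BD ℂ F} {g g' : F} (hg : At M (B.p y) g)
    (hg' : At M' (B.q y) g') (j : ℕ) :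
    At (pb α M + pb β M' - j • dgl α β P.y) y (α g * β g') := by
  simpa using (B.at_box y hg hg').sub ((B.at_off hy).nsmul j)

theorem ne_iff : B.p y ≠ B.q y ↔ At (dgl α β P.y) y 1 := by
  refine ⟨B.at_off, fun h1 hy => ?_⟩
  obtain ⟨a, H⟩ := B.exists_on hy
  exact h1.ev_div_ne H.at_dgl (by rw [one_div, inv_inv, H.ev_e])

theorem dgl_mem : dgl α β P.y ∈ Br.On B.Y := fun y => by
  by_cases hy : B.p y = B.q y
  · obtain ⟨a, H⟩ := B.exists_on hy
    exact ⟨_, H.at_dgl⟩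
  · exact ⟨_, B.at_off hy⟩

theorem box_mem {M M' : BD ℂ F} (hM : M ∈ Br.On P) (hM' : M' ∈ Br.On P) :
    pb α M + pb β M' ∈ Br.On B.Y := fun y => by
  obtain ⟨g, hg⟩ := hM (B.p y)
  obtain ⟨g', hg'⟩ := hM' (B.q y)
  exact ⟨_, B.at_box y hg hg'⟩

include B in
theorem dgl_nonneg : 0 ≤ dgl α β P.y := by
  refine Br.le_of_at (P := B.Y) fun y => ?_
  by_cases hy : B.p y = B.q y
  · obtain ⟨a, H⟩ := B.exists_on hy
    exact ⟨1, _, Br.at_zero y, H.at_dgl, by rw [one_div, inv_inv]; exact H.e_mem⟩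
  · exact ⟨1, 1, Br.at_zero y, B.at_off hy, by simp⟩

/-! ### the swap -/

variable {B} {τ : L →ₐ[ℂ] L} (h1 : ∀ x, τ (α x) = β x) (h2 : ∀ x, τ (β x) = α x)

include h1 h2

theorem On.sub_swap (H : B.On y a) {f : L} (hf : f ∈ (lp y).O) :
    (f - τ f) / (α a - β a) ∈ (lp y).O := by
  have h3 : ∀ f ∈ (lp y).O, (f - τ f) / (α a - β a) ∈ (lp y).O →
      τ f ∈ (lp y).O ∧ ev (τ f) y = ev f y := fun f hf h4 => by
    have h5 : τ f = f - (f - τ f) / (α a - β a) * (α a - β a) := by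
      rw [div_mul_cancel₀ _ H.ne, sub_sub_cancel]
    refine ⟨h5 ▸ sub_mem hf (mul_mem h4 H.e_mem), ?_⟩
    rw [h5, ev, LP.v_sub hf (mul_mem h4 H.e_mem), (lp y).v_mul h4 H.e_mem,
      show (lp y).v (α a - β a) = 0 from H.ev_e, mul_zero, sub_zero, ev]
  have h4 : ∀ f ∈ chD α β (lp (B.p y)).O (α a - β a), (f - τ f) / (α a - β a) ∈ (lp y).O := by
    intro f hf
    induction hf using Algebra.adjoin_induction with
    | mem f hf =>
      rcases hf with (⟨c, hc, rfl⟩ | ⟨c, hc, rfl⟩) | ⟨c, hc, rfl⟩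
      · rw [h1]
        exact H.div_mem hc
      · rw [h2, ← neg_sub, neg_div]
        exact neg_mem (H.div_mem hc)
      · rw [map_div₀, map_sub, map_sub, h1, h2, h1, h2, ← neg_div_neg_eq (β c - α c), neg_sub,
          neg_sub, sub_self, zero_div]
        exact zero_mem _
    | algebraMap c => simp
    | add f g _ _ hf hg =>
      rw [map_add, add_sub_add_comm, add_div]
      exact add_mem hf hg
    | mul f g hf0 hg0 hf hg =>
      convert add_mem (mul_mem (H.of.le hf0) hg) (mul_mem hf (h3 g (H.of.le hg0) hg).1) using 1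
      rw [map_mul]
      ring
  obtain ⟨c, hc, d, hd, h5, h6⟩ := H.of.loc f hf
  have h7 : (lp y).v (τ d) ≠ 0 := by
    rw [← ev, (h3 d (H.of.le hd) (h4 d hd)).2]
    exact h5
  have h8 := LP.ne_zero_of_ne h7
  have h9 : (f - τ f) / (α a - β a) =
      ((c - τ c) / (α a - β a) - f * ((d - τ d) / (α a - β a))) / τ d := by
    rw [← h6, map_mul, eq_div_iff h8]
    ring
  exact h9 ▸ LP.div_mem (sub_mem (h4 c hc) (mul_mem hf (h4 d hd))) h7

theorem On.swap_mem (H : B.On y a) {f : L} (hf : f ∈ (lp y).O) : τ f ∈ (lp y).O := by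
  have h3 := sub_mem hf (mul_mem (H.sub_swap h1 h2 hf) H.e_mem)
  rwa [div_mul_cancel₀ _ H.ne, sub_sub_cancel] at h3

omit B in
theorem swap_mk (x x' : Pts P) {f : L} (hf : f ∈ (lp (Cns.mk h x' x)).O) :
    τ f ∈ (lp (Cns.mk h x x')).O := by
  rw [Cns.lp_mk] at hf
  refine ((Cns.lpP_dom h (M := (lp (Cns.mk h x x')).comap (Plc.ofHom τ))
    ⟨fun c hc => ⟨Algebra.mem_top, Algebra.mem_top, ?_⟩, fun c hc => ?_⟩
    ⟨fun c hc => ⟨Algebra.mem_top, Algebra.mem_top, ?_⟩, fun c hc => ?_⟩).le hf).2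
  · simpa [h1] using Cns.mem_mk h (one_mem (lp x).O) hc
  · simpa [LP.comap_v, h1, ev] using Cns.ev_mk h (one_mem (lp x).O) hc
  · simpa [h2] using Cns.mem_mk h hc (one_mem (lp x').O)
  · simpa [LP.comap_v, h2, ev] using Cns.ev_mk h hc (one_mem (lp x').O)

end Bl

end Crest.Agent.X262.Lift8
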