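import Crest.Agent.X262.Lift8.Sec
import Crest.Agent.X262.G4.Defs
import Crest.Agent.X262.Fano.K
import Crest.Agent.X277.AN.G1Conn

/-!
# Row 262, G4 / LIFT (helper8), part 7: the Pluecker coordinates extend

* `van_S`, `lift_S` : lifting of sections on the quartic;
* `big_plk`         : the Pluecker class is big;
* `lift_of`         : `VanPStmt → BlStmt → G4.LiftStmt`.
-/

set_option autoImplicit false

open PowerSeries
open scoped KaehlerDifferential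

noncomputable section

namespace Crest.Agent.X262.Lift8

open Crest.Agent.X277 Crest.Agent.X277.Lef Crest.Agent.X277.AN.G1 Crest.Agent.X277.BD
open Crest.Agent.X277.BD.Br (On oP kP At)
open Crest.Agent.X262.St91 (dgl)
open Crest.Agent.X262.Top (Hyp Lines)
open Crest.Agent.X262.Mv99
open Crest.Agent.R274.Prod1_134 (IsPF)

variable {F L : Type} [Field F] [Algebra ℂ F] [Field L] [Algebra ℂ L]
  {Γ : MvPolynomial (Fin 4) ℂ} {S : Hyp 3 Γ F}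

theorem lin_K (hΓ : Qt Γ) (b : Module.Basis (Fin 2) F Ω[F⁄ℂ]) : Lin (kP S.P b) 0 := by
  simpa using Fano.lin_hyp b (P := S.P) (r := 0) rfl hΓ.1 (hyp_zero hΓ) hΓ.2.2 four_pos rfl

theorem zo_U (a : Fin 3) : ZO (U S a) := by
  convert zo_at (P := S.P) (oP S.P) (S.P.y a.castSucc) using 1
  exact Set.ext fun _ => Br.at_y_iff.symm

theorem van_S (hV : VanPStmt) (hΓ : Qt Γ) (b : Module.Basis (Fin 2) F Ω[F⁄ℂ]) {N : BD ℂ F}
    (hN : N ∈ On S.P) (h1 : Free N) (h2 : Big N) : Van (U S) (nS N) :=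
  (hV F 2 S.P b N hN h1 h2 _ (U S) zo_U (exists_U hΓ)).of_lin
    (by simpa using (lin_K hΓ b).add (Lin.rfl (a := N)))

theorem lift_S {M : BD ℂ F} (D : Dfm S M) (van : Van (U S) (nS M)) {a : F} (ha : a ∈ M.Sec) :
    ∃ r ∈ G1 D, constantCoeff r = a := by
  obtain ⟨f, h1, h2⟩ := lift_abs (fun c => uni_act (D.Φ c))
    (fun c c' x hc hc' => D.sec c c' x hc hc') van (a := a) fun _ _ _ V _ => ha V
  exact ⟨f, h2, h1⟩

theorem G1_eq {M : BD ℂ F} (D : Dfm S M) : G1 D = G4.Gam D 1 := by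
  ext r
  simp only [G1, G4.Gam, G4.Gm, one_smul, pow_one, Set.mem_ofPred_eq, AddSubgroup.mem_map,
    Mv.act_apply, eq_comm]

variable {G : MvPolynomial (Fin 6) ℂ} (Λ : Lines G F L)

theorem τ_a (i : Fin 8) : Λ.τ (Λ.a i) = Λ.a i :=
  (Λ.fix _).2 (IntermediateField.subset_adjoin _ _ ⟨i, rfl⟩)

theorem τ_plk (ij : Fin 6 × Fin 6) : Λ.τ (Λ.plk ij) = Λ.plk ij := by
  have h1 : ∀ i, Λ.τ (Λ.p i) = Λ.p i := fun i => by
    fin_cases i <;> simp [Lines.p, τ_a]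
  have h2 : ∀ i, Λ.τ (Λ.q i) = Λ.q i := fun i => by
    fin_cases i <;> simp [Lines.q, τ_a]
  simp only [Lines.plk, map_sub, map_mul, h1, h2]

theorem big_plk [Algebra.EssFiniteType ℂ L] : Big (mxf ℂ Λ.plk) := by
  have h0 : ∀ ij, Λ.plk ij ∈ (mxf ℂ Λ.plk).sf := fun ij => by
    have h1 := div_mem_sf (mem_Sec_mxf (k := ℂ) Λ.plk ij) (mem_Sec_mxf Λ.plk (0, 1))
    rwa [show Λ.plk (0, 1) = 1 by simp [Lines.plk, Lines.p, Lines.q], div_one] at h1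
  have h1 : ∀ x, Λ.τ x = x → x ∈ (mxf ℂ Λ.plk).sf := fun x hx => by
    refine IntermediateField.adjoin_le_iff.2 ?_ ((Λ.fix x).1 hx)
    rintro _ ⟨i, rfl⟩
    fin_cases i
    · simpa [Lines.plk, Lines.p, Lines.q] using h0 (2, 1)
    · simpa [Lines.plk, Lines.p, Lines.q] using h0 (3, 1)
    · simpa [Lines.plk, Lines.p, Lines.q] using h0 (4, 1)
    · simpa [Lines.plk, Lines.p, Lines.q] using h0 (5, 1)
    · simpa [Lines.plk, Lines.p, Lines.q] using h0 (0, 2)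
    · simpa [Lines.plk, Lines.p, Lines.q] using h0 (0, 3)
    · simpa [Lines.plk, Lines.p, Lines.q] using h0 (0, 4)
    · simpa [Lines.plk, Lines.p, Lines.q] using h0 (0, 5)
  refine (free_mxf _).big ⟨fun x => IsIntegral.isAlgebraic ?_⟩
  let s : (mxf ℂ Λ.plk).sf := ⟨x + Λ.τ x, h1 _ (by rw [map_add, Λ.inv, add_comm])⟩
  let p : (mxf ℂ Λ.plk).sf := ⟨x * Λ.τ x, h1 _ (by rw [map_mul, Λ.inv, mul_comm])⟩
  refine ⟨Polynomial.X ^ 2 - (Polynomial.C s * Polynomial.X - Polynomial.C p), ?_, ?_⟩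
  · monicity!
  · simp only [Polynomial.eval₂_sub, Polynomial.eval₂_mul, Polynomial.eval₂_pow,
      Polynomial.eval₂_X, Polynomial.eval₂_C]
    change x ^ 2 - ((x + Λ.τ x) * x - x * Λ.τ x) = 0
    ring

section Main

variable [Algebra.EssFiniteType ℂ F] (B : G4.Base F L) (D : Dfm B.S B.LL)
  {h : IsPF B.Λ.ι (G4.ι₂ B.Λ)} (Y : Bl h B.S.P)

/-- the normalised Pluecker class -/
abbrev NN (j : ℕ) : BD ℂ L := Gj B.Λ.ι (G4.ι₂ B.Λ) B.S B.LL j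

theorem plk_eq : mxf ℂ B.Λ.plk = NN B B.m + pr ℂ B.u := B.plk

theorem τ₁ (x : F) : B.Λ.τ (B.Λ.ι x) = G4.ι₂ B.Λ x := rfl

theorem τ₂ (x : F) : B.Λ.τ (G4.ι₂ B.Λ x) = B.Λ.ι x := B.Λ.inv _

theorem map_map_τ (x : L⟦X⟧) : map (B.Λ.τ : L →+* L) (map (B.Λ.τ : L →+* L) x) = x := by
  ext n
  simp [B.Λ.inv]

theorem map_τ_smul (g : ℂ⟦X⟧) (x : L⟦X⟧) :
    map (B.Λ.τ : L →+* L) (g • x) = g • map (B.Λ.τ : L →+* L) x := by
  rw [G4.smul_eq, G4.smul_eq, map_mul]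
  congr 1
  ext n
  simp

/-- the graded ring of deformed symmetric sections -/
def RR (k : ℕ) : Submodule ℂ⟦X⟧ L⟦X⟧ where
  carrier := {x | C (B.u⁻¹ ^ k) * x ∈ T D Y (k • NN B B.m) k ∧ map (B.Λ.τ : L →+* L) x = x}
  zero_mem' := ⟨by rw [mul_zero]; exact zero_mem _, map_zero _⟩
  add_mem' ha hb := ⟨by rw [mul_add]; exact add_mem ha.1 hb.1, by rw [map_add, ha.2, hb.2]⟩
  smul_mem' g x hx := ⟨by rw [mul_smul_comm]; exact Submodule.smul_mem _ g hx.1,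
    by rw [map_τ_smul, hx.2]⟩

theorem mem_RR_one {x : L⟦X⟧} : x ∈ RR B D Y 1 ↔
    C B.u⁻¹ * x ∈ T D Y (NN B B.m) 1 ∧ map (B.Λ.τ : L →+* L) x = x := by
  change C (B.u⁻¹ ^ 1) * x ∈ T D Y (1 • NN B B.m) 1 ∧ _ ↔ _
  rw [pow_one, one_smul]

theorem van_Y (hV : VanPStmt) (hY : Y.Can) {j : ℕ} (hj : B.m = j + 1) :
    Van (U2 Y) (nS (NN B j)) := by
  have := essFiniteType Y.Y
  obtain ⟨b', hb⟩ := hY B.b
  have h1 : Lin (NN B B.m) (mxf ℂ B.Λ.plk) := Lin.symm ⟨B.u, B.u_ne, plk_eq B⟩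
  refine (hV L 4 Y.Y b' (NN B B.m)
    (sub_mem (Y.box_mem B.LL_on B.LL_on) (nsmul_mem Y.dgl_mem _)) (h1.free (free_mxf _))
    (h1.big (big_plk B.Λ)) _ (U2 Y) (zo_U2 Y) (exists_U2 Y B.qt)).of_lin ?_
  have h2 := (hb.trans ((((lin_K B.qt B.b).pb _).add ((lin_K B.qt B.b).pb _)).add Lin.rfl)).add
    (Lin.rfl (a := NN B B.m))
  convert h2 using 1
  rw [hj, map_zero, map_zero, NN, NN, Gj, Gj, succ_nsmul]
  abel

theorem exists_RR (hV : VanPStmt) (hY : Y.Can) (ij : Fin 6 × Fin 6) :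
    ∃ x ∈ RR B D Y 1, constantCoeff x = B.Λ.plk ij := by
  obtain ⟨j, hj⟩ := Nat.exists_eq_succ_of_ne_zero B.m_pos.ne'
  have h0 : B.Λ.plk ij / B.u ∈ (NN B B.m).Sec :=
    (mem_Sec_add_pr B.u_ne).1 (plk_eq B ▸ mem_Sec_mxf B.Λ.plk ij)
  obtain ⟨s, hs, h1⟩ := T.lift D B.LL_on (van_Y B Y hV hY hj)
    (Sec_mono (Gj_le Y (hj ▸ j.le_succ)) h0)
  have h2 : ((-1 : L) ^ B.m) * (-1) ^ B.m = 1 := by rw [← mul_pow]; simp
  have h3 : (C ((-1 : L) ^ B.m) : L⟦X⟧) * C ((-1) ^ B.m) = 1 := by rw [← map_mul, h2, map_one]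
  have h4 : B.Λ.τ ((-1) ^ B.m) = (-1) ^ B.m := by simp
  let t : L⟦X⟧ := (C (2⁻¹ : ℂ) : ℂ⟦X⟧) • (s + C ((-1) ^ B.m) * map (B.Λ.τ : L →+* L) s)
  have h5 : t ∈ T D Y (NN B j) 1 := by
    refine Submodule.smul_mem _ _ (add_mem hs ?_)
    have h6 := Submodule.smul_mem _ ((-1 : ℂ⟦X⟧) ^ B.m) (T.swap (τ₁ B) (τ₂ B) B.LL_on hs)
    rw [G4.smul_eq] at h6
    simpa using h6
  have h6 : map (B.Λ.τ : L →+* L) t = C ((-1) ^ B.m) * t := by
    rw [map_τ_smul, map_add, map_mul, map_map_τ, map_C, RingHom.coe_coe, h4, mul_smul_comm,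
      mul_add, ← mul_assoc, h3, one_mul, add_comm]
  have h7 := T.par (τ₁ B) (τ₂ B) B.LL_on h5 (by rw [h6, hj])
  refine ⟨C B.u * t, (mem_RR_one B D Y).2 ⟨?_, ?_⟩, ?_⟩
  · rw [← mul_assoc, ← map_mul, inv_mul_cancel₀ B.u_ne, map_one, one_mul, hj]
    exact h7
  · rw [map_mul, h6, map_C, RingHom.coe_coe, B.par, map_mul]
    linear_combination C B.u * t * h3
  · have h8 : B.Λ.τ (B.Λ.plk ij / B.u) = (-1) ^ B.m * (B.Λ.plk ij / B.u) := by
      rw [map_div₀, τ_plk, B.par, div_eq_iff (mul_ne_zero (left_ne_zero_of_mul_eq_one h2) B.u_ne)]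
      have := B.u_ne
      field_simp
      linear_combination (-B.Λ.plk ij) * h2
    have h9 : (algebraMap ℂ L 2⁻¹) * 2 = 1 := by
      rw [← map_ofNat (algebraMap ℂ L) 2, ← map_mul, inv_mul_cancel₀ two_ne_zero, map_one]
    dsimp only [t]
    rw [map_mul, constantCoeff_C, G4.smul_eq, map_mul, map_C, constantCoeff_C, map_add, map_mul,
      constantCoeff_C, const_map, h1, RingHom.coe_coe, h8, ← mul_assoc ((-1 : L) ^ B.m), h2,
      one_mul, ← two_mul, ← mul_assoc _ (2 : L), h9, one_mul, mul_div_cancel₀ _ B.u_ne]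

end Main

/-- **LIFT** -/
theorem lift_of (hV : VanPStmt) (hB : BlStmt) : G4.LiftStmt := by
  intro F L _ _ _ _ _ B D hA
  obtain ⟨Y, hY⟩ := hB F L B.Λ.ι (G4.ι₂ B.Λ) B.pf B.S.P B.b
  have hd : dim ℂ F = 2 := by simpa using Module.finrank_eq_card_basis B.b
  have hl := fun a => lift_S (a := a) D
    (van_S hV B.qt B.b B.LL_on hA.1 (hA.1.nef.big_iff.2 (hd ▸ B.pos)))
  choose x hx h0 using exists_RR B D Y hV hY
  refine ⟨RR B D Y, fun k l x hx y hy => ⟨?_, by rw [map_mul, hx.2, hy.2]⟩,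
    fun k x hx => ⟨T.sat (by rw [mul_left_comm]; exact hx.1), ?_⟩, fun k x hx => ⟨?_, ?_⟩,
    fun x hx => ?_, fun i j => (C (2⁻¹ : ℂ) : ℂ⟦X⟧) • (x (i, j) - x (j, i)), fun i j => ?_,
    fun i j => Submodule.smul_mem _ _ (sub_mem (hx _) (hx _)), fun i j => ?_⟩
  · rw [pow_add, map_mul, mul_mul_mul_comm, add_smul]
    exact T.mul hx.1 hy.1
  · have h1 := hx.2
    rw [map_mul, map_X] at h1
    exact mul_left_cancel₀ X_ne_zero h1
  · exact (const_map (B.Λ.τ : L →+* L) x).symm.trans (congrArg _ hx.2)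
  · have h1 := T.const B.qt hx.1
    rw [plk_eq, smul_add, ← pr_pow B.u_ne, mem_Sec_add_pr (pow_ne_zero k B.u_ne), div_eq_inv_mul,
      ← inv_pow]
    rwa [map_mul, constantCoeff_C] at h1
  · obtain ⟨h1, h2⟩ := (mem_RR_one B D Y).1 hx
    have h3 := T.kn B.qt B.LL_on hl h1
    refine ⟨h2, by rwa [G1_eq] at h3, fun n V hα hβ => ?_⟩
    rw [← coeff_C_mul]
    exact T.dg B.qt B.LL_on h1 h3 n V hα hβ
  · rw [← smul_neg, neg_sub]
  · have h9 : (algebraMap ℂ L 2⁻¹) * 2 = 1 := by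
      rw [← map_ofNat (algebraMap ℂ L) 2, ← map_mul, inv_mul_cancel₀ two_ne_zero, map_one]
    dsimp only
    rw [G4.smul_eq, map_mul, map_C, constantCoeff_C, map_sub, h0, h0]
    simp only [Lines.plk]
    linear_combination (B.Λ.p i * B.Λ.q j - B.Λ.p j * B.Λ.q i) * h9

end Crest.Agent.X262.Lift8
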