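import Crest.Agent.X262.Lift8.Bl
import Crest.Agent.X262.Mv99.Ten

/-!
# Row 262, G4 / LIFT (helper8), part 5: moves on the blow-up of the diagonal

* `ten_sub`, `ten_chD`, `ψ_mem_of_of` : the square of a move acts on the charts of the blow-up;
* `Bl.On.same`, `Bl.same_off` : the deformations of the charts agree;
* `Bl.On.coeff_mem` : the order along the diagonal can be read off the coefficients;
* `span_of_approx` : a saturated module is spanned by lifts of generators.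
-/

set_option autoImplicit false

open PowerSeries

noncomputable section

namespace Crest.Agent.X262.Lift8

open Crest.Agent.X277 Crest.Agent.X277.Lef Crest.Agent.X277.AN.G1 Crest.Agent.X277.BD
open Crest.Agent.X277.BD.Br (oP kP At)
open Crest.Agent.X262.St91 (dgl)
open Crest.Agent.X262.Mv99
open Crest.Agent.R274.Prod1_134 (IsPF)

variable {F L : Type} [Field F] [Algebra ℂ F] [Field L] [Algebra ℂ L]

/-- a saturated module is spanned by lifts of generators of its reduction -/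
theorem span_of_approx {κ : Type} [Fintype κ] {T : Submodule ℂ⟦X⟧ L⟦X⟧}
    (sat : ∀ s, X * s ∈ T → s ∈ T) {v : κ → L⟦X⟧} (hv : ∀ i, v i ∈ T)
    (h : ∀ s ∈ T, constantCoeff s ∈ Submodule.span ℂ (Set.range fun i => constantCoeff (v i)))
    {s : L⟦X⟧} (hs : s ∈ T) : s ∈ Submodule.span ℂ⟦X⟧ (Set.range v) := by
  have h1 : ∀ (g : ℂ⟦X⟧) (x : L⟦X⟧), g • x = map (algebraMap ℂ L) g * x := Algebra.smul_def
  have h2 : ∀ s : T, ∃ (c : κ → ℂ) (s' : T),
      (s : L⟦X⟧) = ∑ i, (C (c i) : ℂ⟦X⟧) • v i + X * (s' : L⟦X⟧) := by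
    rintro ⟨s, hs⟩
    obtain ⟨c, hc⟩ := (Submodule.mem_span_range_iff_exists_fun ℂ).1 (h s hs)
    have h3 : X ∣ s - ∑ i, (C (c i) : ℂ⟦X⟧) • v i := by
      rw [X_dvd_iff, map_sub, ← hc, map_sum, sub_eq_zero]
      refine Finset.sum_congr rfl fun i _ => ?_
      rw [h1, map_mul, map_C, constantCoeff_C, Algebra.smul_def]
    obtain ⟨s', h3⟩ := h3
    exact ⟨c, ⟨s', sat _ (h3 ▸ sub_mem hs (sum_mem fun i _ => T.smul_mem _ (hv i)))⟩,
      by rw [← h3, add_sub_cancel]⟩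
  choose c nx h2 using h2
  have h3 : ∀ (n : ℕ) (s : T), X ^ n ∣ (s : L⟦X⟧) -
      ∑ i, (PowerSeries.mk fun j => c (nx^[j] s) i : ℂ⟦X⟧) • v i := by
    intro n
    induction n with
    | zero => simp
    | succ n ih =>
      intro s
      have h4 : ∀ i, (PowerSeries.mk fun j => c (nx^[j] s) i : ℂ⟦X⟧) =
          C (c s i) + X * PowerSeries.mk fun j => c (nx^[j] (nx s)) i := fun i => by
        rw [eq_C_add (PowerSeries.mk fun j => c (nx^[j] s) i)]
        congr 2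
        ext j
        simp [sh]
      obtain ⟨w, hw⟩ := ih (nx s)
      refine ⟨w, ?_⟩
      have h5 : ∀ i, (X * PowerSeries.mk fun j => c (nx^[j] (nx s)) i : ℂ⟦X⟧) • v i =
          X * (PowerSeries.mk fun j => c (nx^[j] (nx s)) i : ℂ⟦X⟧) • v i := fun i => by
        rw [h1, h1, map_mul, map_X, mul_assoc]
      simp only [h4, add_smul, h5, Finset.sum_add_distrib, ← Finset.mul_sum]
      rw [pow_succ', mul_assoc, ← hw]
      linear_combination h2 s
  rw [show s = _ from eq_of_dvd fun n => h3 n ⟨s, hs⟩]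
  exact sum_mem fun i _ => Submodule.smul_mem _ _ (Submodule.subset_span ⟨i, rfl⟩)

theorem ψ_mem_of_of {M : LP L} {A W : Subalgebra ℂ L} (hM : M.Of A) {m : Mv ℂ L} (hW : M.O ≤ W)
    (hA : ∀ a ∈ A, m.ψ (C a) ∈ serR W.toSubring) {f : L} (hf : f ∈ M.O) :
    m.ψ (C f) ∈ serR W.toSubring := by
  obtain ⟨a, ha, c, hc, h1, h2⟩ := hM.loc f hf
  obtain ⟨g, hg, h3⟩ := exists_inv_serR (hA c hc) (hW (M.inv_mem h1))
    (by rw [m.ψ0, mul_inv_cancel₀ (LP.ne_zero_of_ne h1)])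
  have h4 : m.ψ (C f) = m.ψ (C a) * g := by rw [← h2, map_mul, map_mul, mul_assoc, h3, mul_one]
  exact h4 ▸ mul_mem (hA a ha) hg

variable {α β : F →ₐ[ℂ] L} (h : IsPF α β)

section Ten

variable {d : Mv ℂ F} {O : Subring F} {W : Subalgebra ℂ L}
  (hd : ∀ a ∈ O, d.ψ (C a) ∈ serR O)

include hd

theorem ten_sub {e : L} (he : e ≠ 0) (hδ : ∀ c ∈ O, (α c - β c) / e ∈ W) {c : F} (hc : c ∈ O) :
    ∃ w ∈ serR W.toSubring, (ten h d d).ψ (C (α c - β c)) = C e * w ∧
      constantCoeff w = (α c - β c) / e := by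
  refine ⟨C e⁻¹ * (ten h d d).ψ (C (α c - β c)), fun n => ?_, ?_, ?_⟩
  · rw [coeff_C_mul, map_sub, map_sub, ten_C_left, ten_C_right, map_sub, coeff_map, coeff_map,
      ← div_eq_inv_mul]
    exact hδ _ (hd c hc n)
  · rw [← mul_assoc, ← map_mul, mul_inv_cancel₀ he, map_one, one_mul]
  · rw [map_mul, constantCoeff_C, Mv.ψ0, div_eq_inv_mul]

theorem ten_chD {a : F} (ha : a ∈ O) (he : α a - β a ≠ 0) (hα : ∀ c ∈ O, α c ∈ W)
    (hβ : ∀ c ∈ O, β c ∈ W) (hδ : ∀ c ∈ O, (α c - β c) / (α a - β a) ∈ W) {O' : Subalgebra ℂ F}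
    (hO : ∀ c ∈ O', c ∈ O) {f : L} (hf : f ∈ chD α β O' (α a - β a)) :
    (ten h d d).ψ (C f) ∈ serR W.toSubring := by
  obtain ⟨w, hw, h1, h2⟩ := ten_sub h hd he hδ ha
  obtain ⟨w', hw', h3⟩ := exists_inv_serR hw (one_mem _) (by rw [h2, div_self he, one_mul])
  refine Mv.ψ_mem_of_adjoin ?_ hf
  rintro _ ((⟨c, hc, rfl⟩ | ⟨c, hc, rfl⟩) | ⟨c, hc, rfl⟩)
  · rw [ten_C_left]
    exact map_mem_ser (M := O.toAddSubgroup) (M' := W.toSubring.toAddSubgroup) hα (hd c (hO c hc))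
  · rw [ten_C_right]
    exact map_mem_ser (M := O.toAddSubgroup) (M' := W.toSubring.toAddSubgroup) hβ (hd c (hO c hc))
  · obtain ⟨v, hv, h4, -⟩ := ten_sub h hd he hδ (hO c hc)
    have h5 : (ten h d d).ψ (C ((α c - β c) / (α a - β a))) * (C (α a - β a) * w) =
        C (α a - β a) * v := by
      rw [← h1, ← h4, ← map_mul, ← map_mul, div_mul_cancel₀ _ he]
    have h6 : (ten h d d).ψ (C ((α c - β c) / (α a - β a))) = v * w' := by
      refine mul_left_cancel₀ (a := (C (α a - β a) : L⟦X⟧))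
        (fun h0 => he (C_injective (h0.trans (map_zero _).symm))) ?_
      linear_combination w' * h5 -
        C (α a - β a) * (ten h d d).ψ (C ((α c - β c) / (α a - β a))) * h3
    exact h6 ▸ mul_mem hv hw'

end Ten

theorem ten_act_C (d d' : Mv ℂ F) (g g' e : _) (j : ℕ) :
    (ten h d d').act (C (α g * β g' * e ^ j)) = (ten h d d').ψ (C e) ^ j *
      (map (α : F →+* L) (d.act (C g)) * map (β : F →+* L) (d'.act (C g'))) := by
  rw [← ten_act h, ← map_pow, ← Mv.act_mul, map_C, map_C, ← map_pow, ← map_mul, ← map_mul, mul_comm]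
  rfl

namespace Bl

variable {h} {P : PModel ℂ F} {B : Bl h P} {y : Pts B.Y} {a : F} {M M' : BD ℂ F}

theorem On.pres (H : B.On y a) (hM : M ∈ Br.On P) {d : Mv ℂ F}
    (hd : d.Pres (oR (B.p y)) (nS M (B.p y))) (j : ℕ) :
    (ten h d d).Pres (oR y) (nS (pb α M + pb β M - j • dgl α β P.y) y) := by
  obtain ⟨g, hg⟩ := hM (B.p y)
  obtain ⟨h1, w, hw, h2⟩ := (pres_prin hg.ne fun _ => mem_nS_iff hg).1 hd
  have hz := H.at_sub hg j
  obtain ⟨v, hv, h3, -⟩ := ten_sub h (W := (lp y).O) h1 H.ne (fun c hc => H.div_mem hc) H.mem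
  refine (pres_prin hz.ne fun _ => mem_nS_iff hz).2 ⟨fun f hf => ψ_mem_of_of H.of le_rfl
    (fun f hf => ten_chD h h1 H.mem H.ne (fun c hc => B.left_mem y hc) (fun c hc => H.right_mem hc)
      (fun c hc => H.div_mem hc) (fun _ hc => hc) hf) hf,
    v ^ j * (map (α : F →+* L) w * map (β : F →+* L) w), mul_mem (pow_mem hv j) (mul_mem
      (map_mem_ser (M := (oR (B.p y)).toAddSubgroup) (M' := (oR y).toAddSubgroup)
        (fun c hc => B.left_mem y hc) hw)
      (map_mem_ser (M := (oR (B.p y)).toAddSubgroup) (M' := (oR y).toAddSubgroup)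
        (fun c hc => H.right_mem hc) hw)), ?_⟩
  rw [ten_act_C, h2, h3]
  simp only [map_mul, map_pow, map_C, RingHom.coe_coe]
  ring

theorem On.same (H : B.On y a) (hM : M ∈ Br.On P) {m m' : Mv ℂ F}
    (hs : m.Same m' (oR (B.p y)) (nS M (B.p y))) (j : ℕ) :
    (ten h m m).Same (ten h m' m') (oR y) (nS (pb α M + pb β M - j • dgl α β P.y) y) := by
  obtain ⟨d, hd, rfl⟩ := hs.exists
  rw [ten_comp]
  exact Mv.same_comp_iff.2 (H.pres hM hd j)

theorem same_off (hy : B.p y ≠ B.q y) (hM : M ∈ Br.On P) (hM' : M' ∈ Br.On P)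
    {m₁ m₂ m₁' m₂' : Mv ℂ F} (hs : m₁.Same m₂ (oR (B.p y)) (nS M (B.p y)))
    (hs' : m₁'.Same m₂' (oR (B.q y)) (nS M' (B.q y))) (j : ℕ) :
    (ten h m₁ m₁').Same (ten h m₂ m₂') (oR y) (nS (pb α M + pb β M' - j • dgl α β P.y) y) := by
  obtain ⟨g, hg⟩ := hM (B.p y)
  obtain ⟨g', hg'⟩ := hM' (B.q y)
  have h1 : oR y = oR (Cns.mk h (B.p y) (B.q y)) := by
    unfold oR
    rw [B.off y hy]
  have h2 : nS (pb α M + pb β M' - j • dgl α β P.y) y =
      nS (pb α M + pb β M') (Cns.mk h (B.p y) (B.q y)) := by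
    ext z
    rw [mem_nS_iff (B.at_sub_off hy hg hg' j), mem_nS_iff (at_mk h hg hg'), h1]
  rw [h1, h2]
  exact same_ten h hM hM' hs hs'

/-- the order along the diagonal of the coefficients -/
theorem On.coeff_mem (H : B.On y a) (hM : M ∈ Br.On P) (d : Mv ℂ F) {j : ℕ} {W : Subalgebra ℂ L}
    (hW : (lp y).O ≤ W) (hα : ∀ c, α c ∈ W) (hβ : ∀ c, β c ∈ W) {s : L⟦X⟧}
    (hs : s ∈ (ser (nS (pb α M + pb β M - j • dgl α β P.y) y)).map (ten h d d).act) (n : ℕ) :
    coeff n s / (α a - β a) ^ j ∈ W := by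
  obtain ⟨g, hg⟩ := hM (B.p y)
  have hz := H.at_sub hg j
  have hδ : ∀ c ∈ (⊤ : Subring F), (α c - β c) / (α a - β a) ∈ W := fun c _ => by
    obtain ⟨c₁, h1, c₂, h2, h0, rfl⟩ := frac_lp (B.p y) c
    have h3 : α c₂ ≠ 0 := (map_ne_zero α).2 h0
    have h4 : β c₂ ≠ 0 := (map_ne_zero β).2 h0
    convert mul_mem (sub_mem (mul_mem (hW (H.div_mem h1)) (hβ c₂))
      (mul_mem (hβ c₁) (hW (H.div_mem h2)))) (mul_mem (hα c₂⁻¹) (hβ c₂⁻¹)) using 1
    simp only [map_div₀, map_inv₀]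
    have := H.ne
    field_simp
    ring
  have hd : ∀ c ∈ (⊤ : Subring F), d.ψ (C c) ∈ serR ⊤ := fun _ _ _ => trivial
  obtain ⟨v, hv, h3, -⟩ := ten_sub h hd H.ne hδ (c := a) trivial
  obtain ⟨_, ⟨w, hw, rfl⟩, rfl⟩ := (mem_map_act hz.ne fun _ => mem_nS_iff hz).1 hs
  have h4 : (ten h d d).ψ w ∈ serR W.toSubring :=
    (ten h d d).xl.mem (M := (oR y).toAddSubgroup) (M' := W.toSubring.toAddSubgroup)
      (fun f hf => ψ_mem_of_of H.of hW (fun f hf => ten_chD h hd trivial H.ne (fun c _ => hα c)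
        (fun c _ => hβ c) hδ (fun _ _ => trivial) hf) hf) hw
  have h5 := mul_mem (mul_mem (pow_mem hv j) (mul_mem
    (show map (α : F →+* L) (d.act (C g)) ∈ serR W.toSubring from fun i => by
      rw [coeff_map]; exact hα _)
    (show map (β : F →+* L) (d.act (C g)) ∈ serR W.toSubring from fun i => by
      rw [coeff_map]; exact hβ _))) h4 n
  rwa [ten_act_C, h3, mul_pow, ← map_pow, mul_assoc, mul_assoc, coeff_C_mul,
    mul_div_cancel_left₀ _ (pow_ne_zero j H.ne), ← mul_assoc]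

end Bl

end Crest.Agent.X262.Lift8
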