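import Crest.Agent.X262.Lift8.Prs
import Crest.Agent.X262.Mv99.Mon
import Crest.Agent.X277.Cns.Kun

/-!
# Row 262, G4 / LIFT (helper8), part 6: deformed sections on the blow-up of the diagonal

* `Van.of_lin`, `Sec_box` : change of the trivialisation, Kuenneth;
* `U2 B c`, `Φ2 D h c`    : the charts and the moves;
* `T D B N k`             : deformed global sections; `T.mul`, `T.sat`, `T.const`, `T.mono`;
* `T.lift`, `T.swap`, `T.par`, `T.prod`, `T.kn`, `T.dg`.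
-/

set_option autoImplicit false

open PowerSeries

noncomputable section

namespace Crest.Agent.X262.Lift8

open Crest.Agent.X277 Crest.Agent.X277.Lef Crest.Agent.X277.AN.G1 Crest.Agent.X277.BD
open Crest.Agent.X277.BD.Br (On oP kP At)
open Crest.Agent.X262.St91 (dgl)
open Crest.Agent.X262.Top (Hyp)
open Crest.Agent.X262.Mv99
open Crest.Agent.R274.Prod1_134 (IsPF)

variable {F L : Type} [Field F] [Algebra ℂ F] [Field L] [Algebra ℂ L]

theorem Van.of_lin {P : PModel ℂ F} {ι : Type*} {U : ι → Set (Pts P)} {a a' : BD ℂ F}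
    (h : Lin a a') (van : Van U (nS a)) : Van U (nS a') := by
  obtain ⟨f, hf, rfl⟩ := h
  have key : ∀ (z : F) (x : Pts P), z * f ∈ nS (a' + pr ℂ f) x ↔ z ∈ nS a' x := fun z x =>
    forall₂_congr fun V _ => by
      rw [map_mul, val_add, val_pr hf, mul_le_mul_iff_left₀ (RZ.pos hf)]
  intro r hr
  obtain ⟨s, hs⟩ := van (fun c => r c * f) fun c c' x hc hc' => by
    rw [← sub_mul, key]
    exact hr c c' x hc hc'
  exact ⟨s / f, fun c x hc => (key _ x).1 (by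
    rw [sub_mul, div_mul_cancel₀ _ hf]
    exact hs c x hc)⟩

theorem pow_one' (m : Mv ℂ L) : m.pow 1 = m := Mv.ext' (fun _ => rfl) (pow_one m.u)

variable {α β : F →ₐ[ℂ] L}

theorem Sec_box (h : IsPF α β) (P : PModel ℂ F) (a a' : BD ℂ F) : (pb α a + pb β a').Sec =
    a.Sec.map α.toLinearMap * a'.Sec.map β.toLinearMap := by
  rw [← (((rep_fr a).pb α).add ((rep_fr a').pb β)).Sec_eq,
    Cns.kunneth h (Cns.pn_prod P P h) (fr_ne _ _) (fr_ne _ _), (rep_fr a).Sec_eq,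
    (rep_fr a').Sec_eq]

variable {Γ : MvPolynomial (Fin 4) ℂ} {S : Hyp 3 Γ F} {M : BD ℂ F} (D : Dfm S M)
  {h : IsPF α β} (B : Bl h S.P)

/-- the charts of the blow-up -/
def U2 (c : Fin 3 × Fin 3) : Set (Pts B.Y) :=
  {y | B.p y ∈ U S c.1 ∧ B.q y ∈ U S c.2 ∧ (c.1 = c.2 ∨ B.p y ≠ B.q y)}

theorem zo_U2 (c : Fin 3 × Fin 3) : ZO (U2 B c) := by
  have h1 := (zo_at (P := B.Y) (pb α (oP S.P)) (α (S.P.y c.1.castSucc))).inter
    (zo_at (pb β (oP S.P)) (β (S.P.y c.2.castSucc)))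
  by_cases hc : c.1 = c.2
  · convert h1 using 1
    ext y
    exact ⟨fun hy => ⟨(B.p_mem_iff y).1 hy.1, (B.q_mem_iff y).1 hy.2.1⟩,
      fun hy => ⟨(B.p_mem_iff y).2 hy.1, (B.q_mem_iff y).2 hy.2, Or.inl hc⟩⟩
  · convert h1.inter (zo_at (dgl α β S.P.y) 1) using 1
    ext y
    exact ⟨fun hy => ⟨⟨(B.p_mem_iff y).1 hy.1, (B.q_mem_iff y).1 hy.2.1⟩,
        B.ne_iff.1 (hy.2.2.resolve_left hc)⟩,
      fun hy => ⟨(B.p_mem_iff y).2 hy.1.1, (B.q_mem_iff y).2 hy.1.2, Or.inr (B.ne_iff.2 hy.2)⟩⟩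

theorem exists_U2 (hΓ : Qt Γ) (y : Pts B.Y) : ∃ c, y ∈ U2 B c := by
  obtain ⟨a, ha⟩ := exists_U hΓ (B.p y)
  obtain ⟨b, hb⟩ := exists_U hΓ (B.q y)
  by_cases hy : B.p y = B.q y
  · exact ⟨(a, a), ha, hy ▸ ha, Or.inl rfl⟩
  · exact ⟨(a, b), ha, hb, Or.inr hy⟩

variable (h) in
/-- the moves -/
def Φ2 (c : Fin 3 × Fin 3) : Mv ℂ L := ten h (D.Φ c.1) (D.Φ c.2)

/-- deformed global sections -/
def T (N : BD ℂ L) (k : ℕ) : Submodule ℂ⟦X⟧ L⟦X⟧ where
  carrier := {s | ∀ c, ∀ y ∈ U2 B c, s ∈ (ser (nS N y)).map ((Φ2 D h c).pow k).act}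
  zero_mem' _ _ _ := zero_mem _
  add_mem' ha hb c y hy := add_mem (ha c y hy) (hb c y hy)
  smul_mem' g s hs c y hy := by
    obtain ⟨w, hw, rfl⟩ := hs c y hy
    refine ⟨map (algebraMap ℂ L) g * w, mul_mem_ser (M := (oR y).toAddSubgroup)
      (fun _ ha _ hb => o_mul_mem_nS ha hb) (fun i => ?_) hw, ?_⟩
    · rw [coeff_map]
      exact (lp y).O.algebraMap_mem _
    · rw [Mv.act_mul, Mv.ψ_map]
      exact (Algebra.smul_def g _).symm

variable (α β S M) in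
/-- `M₁ + M₂ - j E` -/
abbrev Gj (j : ℕ) : BD ℂ L := pb α M + pb β M - j • dgl α β S.P.y

variable {D B} {N N' : BD ℂ L} {k l j : ℕ} {s s' : L⟦X⟧}

theorem mem_T_one :
    s ∈ T D B N 1 ↔ ∀ c, ∀ y ∈ U2 B c, s ∈ (ser (nS N y)).map (Φ2 D h c).act := by
  exact forall₃_congr fun c y _ => by rw [pow_one']

theorem T.mul (hs : s ∈ T D B N k) (hs' : s' ∈ T D B N' l) :
    s * s' ∈ T D B (N + N') (k + l) := fun c y hy => by
  obtain ⟨w, hw, rfl⟩ := hs c y hy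
  obtain ⟨w', hw', rfl⟩ := hs' c y hy
  exact ⟨w * w', mul_mem_ser (fun _ ha _ hb => mul_mem_nS ha hb) hw hw',
    Mv.pow_act_mul _ _ _ _ _⟩

theorem T.sat (hs : X * s ∈ T D B N k) : s ∈ T D B N k := fun c y hy =>
  (uni_act _).sat (n := 1) (by simpa using hs c y hy)

theorem T.const (hΓ : Qt Γ) (hs : s ∈ T D B N k) : constantCoeff s ∈ N.Sec := fun V => by
  obtain ⟨y, hy⟩ := Br.exists_ov' B.Y V
  obtain ⟨c, hc⟩ := exists_U2 B hΓ y
  exact (uni_act _).const_mem (hs c y hc) V hy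

theorem T.mono (hN : N ≤ N') (hs : s ∈ T D B N k) : s ∈ T D B N' k := fun c y hy =>
  AddSubgroup.map_mono (ser_mono fun _ hz V hV => (hz V hV).trans (hN V)) (hs c y hy)

theorem Gj_le (B : Bl h S.P) (hj : j ≤ k) : Gj α β S M k ≤ Gj α β S M j :=
  sub_le_sub_left (nsmul_le_nsmul_left B.dgl_nonneg hj) _

theorem same_U2 (hM : M ∈ On S.P) (j : ℕ) {c c' : Fin 3 × Fin 3} {y : Pts B.Y} (hc : y ∈ U2 B c)
    (hc' : y ∈ U2 B c') : (Φ2 D h c).Same (Φ2 D h c') (oR y) (nS (Gj α β S M j) y) := by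
  by_cases hy : B.p y = B.q y
  · obtain ⟨a, H⟩ := B.exists_on hy
    obtain ⟨c₁, c₂⟩ := c
    obtain ⟨c₃, c₄⟩ := c'
    obtain rfl : c₁ = c₂ := hc.2.2.resolve_right (not_not.2 hy)
    obtain rfl : c₃ = c₄ := hc'.2.2.resolve_right (not_not.2 hy)
    exact H.same hM (D.same hc.1 hc'.1) j
  · exact Bl.same_off hy hM hM (D.same hc.1 hc'.1) (D.same hc.2.1 hc'.2.1) j

theorem T.lift (D : Dfm S M) (hM : M ∈ On S.P) (van : Van (U2 B) (nS (Gj α β S M j))) {a : L}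
    (ha : a ∈ (Gj α β S M j).Sec) : ∃ s ∈ T D B (Gj α β S M j) 1, constantCoeff s = a := by
  obtain ⟨f, h1, h2⟩ := lift_abs (Φ := fun c => (Φ2 D h c).act) (fun c => uni_act _)
    (fun c c' y hc hc' => (same_U2 hM j hc hc').2) van fun c y _ V _ => ha V
  exact ⟨f, mem_T_one.2 h2, h1⟩

/-- deformed sections on the surface -/
def G1 (D : Dfm S M) : Set F⟦X⟧ := {r | ∀ a, ∀ x ∈ U S a, r ∈ (ser (nS M x)).map (D.Φ a).act}

theorem T.prod (B : Bl h S.P) (hM : M ∈ On S.P) {r r' : F⟦X⟧} (hr : r ∈ G1 D) (hr' : r' ∈ G1 D) :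
    map (α : F →+* L) r * map (β : F →+* L) r' ∈ T D B (Gj α β S M 0) 1 := by
  refine mem_T_one.2 fun c y hy => ?_
  obtain ⟨w, hw, rfl⟩ := hr c.1 _ hy.1
  obtain ⟨w', hw', rfl⟩ := hr' c.2 _ hy.2.1
  obtain ⟨g, hg⟩ := hM (B.p y)
  obtain ⟨g', hg'⟩ := hM (B.q y)
  refine ⟨_, mul_mem_ser (M := nS (pb α M) y) (M' := nS (pb β M) y)
    (fun _ ha _ hb => by simpa [Gj] using mul_mem_nS ha hb)
    (map_mem_ser (fun z hz => ?_) hw) (map_mem_ser (fun z hz => ?_) hw'), ten_act h _ _ w w'⟩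
  · rw [mem_nS_iff (B.at_left y hg), RingHom.coe_coe, ← map_div₀]
    exact B.left_mem y ((mem_nS_iff hg).1 hz)
  · rw [mem_nS_iff (B.at_right y hg'), RingHom.coe_coe, ← map_div₀]
    exact B.right_mem y ((mem_nS_iff hg').1 hz)

/-- **thick Kuenneth formula** -/
theorem T.kn [Algebra.EssFiniteType ℂ F] (hΓ : Qt Γ) (hM : M ∈ On S.P)
    (hl : ∀ a ∈ M.Sec, ∃ r ∈ G1 D, constantCoeff r = a) (hs : s ∈ T D B (Gj α β S M j) 1) :
    s ∈ Submodule.span ℂ⟦X⟧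
      {z | ∃ r ∈ G1 D, ∃ r' ∈ G1 D, z = map (α : F →+* L) r * map (β : F →+* L) r'} := by
  let b := Module.finBasis ℂ M.Sec
  choose r hr h0 using fun i => hl _ (b i).2
  have h1 : M.Sec = Submodule.span ℂ (Set.range fun i => (b i : F)) := by
    have h2 := congrArg (Submodule.map M.Sec.subtype) b.span_eq
    rw [Submodule.map_span, Submodule.map_subtype_top, ← Set.range_comp] at h2
    exact h2.symm
  refine Submodule.span_mono ?_ (span_of_approx (T := T D B (Gj α β S M 0) 1) (fun _ => T.sat)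
    (v := fun p : _ × _ => map (α : F →+* L) (r p.1) * map (β : F →+* L) (r p.2))
    (fun p => T.prod B hM (hr _) (hr _)) (fun s hs => ?_) (T.mono (Gj_le B j.zero_le) hs))
  · rintro _ ⟨p, rfl⟩
    exact ⟨_, hr _, _, hr _, rfl⟩
  · have h2 := T.const hΓ hs
    rw [Gj, zero_smul, sub_zero, Sec_box h S.P, h1, Submodule.map_span, Submodule.map_span,
      Submodule.span_mul_span] at h2
    refine Submodule.span_mono ?_ h2
    rintro _ ⟨_, ⟨_, ⟨i, rfl⟩, rfl⟩, _, ⟨_, ⟨i', rfl⟩, rfl⟩, rfl⟩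
    exact ⟨(i, i'), by simp [const_map, h0]⟩

/-- the coefficients vanish along the diagonal -/
theorem T.dg (hΓ : Qt Γ) (hM : M ∈ On S.P) (hs : s ∈ T D B (Gj α β S M j) 1)
    (hk : s ∈ Submodule.span ℂ⟦X⟧
      {z | ∃ r ∈ G1 D, ∃ r' ∈ G1 D, z = map (α : F →+* L) r * map (β : F →+* L) r'})
    (n : ℕ) (V : RZ ℂ L) (hα : ∀ g, α g ∈ V.1) (hβ : ∀ g, β g ∈ V.1) :
    V.v (coeff n s) ≤ (-(j • dgl α β S.P.y)).val V := by
  obtain ⟨y, hy⟩ := Br.exists_ov' B.Y V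
  by_cases h0 : B.p y = B.q y
  · obtain ⟨a, H⟩ := B.exists_on h0
    obtain ⟨c, hc⟩ := exists_U hΓ (B.p y)
    have h1 := H.coeff_mem hM (D.Φ c) (W := Cns.kSub V.2) hy hα hβ
      (mem_T_one.1 hs (c, c) y ⟨hc, h0 ▸ hc, Or.inl rfl⟩) n
    rw [← (H.at_dgl.nsmul j).neg V hy, inv_pow, inv_inv]
    exact (RZ.le_iff (pow_ne_zero j H.ne)).2 h1
  · rw [← ((B.at_off h0).nsmul j).neg V hy, one_pow, inv_one, map_one]
    have h1 : s ∈ serR V.1.toSubring := by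
      clear hs
      induction hk using Submodule.span_induction with
      | mem z hz =>
        obtain ⟨r, -, r', -, rfl⟩ := hz
        exact mul_mem (fun i => by rw [coeff_map]; exact hα _) fun i => by
          rw [coeff_map]; exact hβ _
      | zero => exact zero_mem _
      | add _ _ _ _ h1 h2 => exact add_mem h1 h2
      | smul g z _ h1 =>
        rw [Algebra.smul_def]
        exact mul_mem (fun i => by
          change coeff i (map (algebraMap ℂ L) g) ∈ _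
          rw [coeff_map]
          exact V.2 _) h1
    exact RZ.le_one_iff.2 (h1 n)

variable {τ : L →ₐ[ℂ] L} (h1 : ∀ x, τ (α x) = β x) (h2 : ∀ x, τ (β x) = α x)

include h1 h2

theorem swap_gen (g a : F) (j : ℕ) :
    τ (α g * β g * (α a - β a) ^ j) = (-1) ^ j * (α g * β g * (α a - β a) ^ j) := by
  rw [map_mul, map_mul, map_pow, map_sub, h1, h2, h1, h2, ← neg_sub (α a), neg_pow]
  ring

theorem T.swap (hM : M ∈ On S.P) (hs : s ∈ T D B (Gj α β S M j) 1) :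
    map (τ : L →+* L) s ∈ T D B (Gj α β S M j) 1 := by
  rw [mem_T_one] at hs ⊢
  rintro ⟨c₁, c₂⟩ y hy
  obtain ⟨g, hg⟩ := hM (B.p y)
  by_cases h0 : B.p y = B.q y
  · obtain rfl : c₁ = c₂ := hy.2.2.resolve_right (not_not.2 h0)
    obtain ⟨a, H⟩ := B.exists_on h0
    obtain ⟨w, hw, rfl⟩ := hs _ y hy
    refine ⟨_, map_mem_ser (fun z hz => ?_) hw, (ten_swap_act h h1 h2 _ _ w).symm⟩
    rw [mem_nS_iff (H.at_sub hg j)] at hz ⊢
    have h3 := mul_mem (pow_mem (neg_mem (one_mem (lp y).O)) j) (H.swap_mem h1 h2 hz)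
    rwa [map_div₀, swap_gen h1 h2, ← mul_div_assoc,
      mul_div_mul_left _ _ (pow_ne_zero j (neg_ne_zero.2 one_ne_zero))] at h3
  · obtain ⟨y', e₁, e₂⟩ := B.sur _ _ (Ne.symm h0)
    have h3 : B.p y' ≠ B.q y' := by
      rw [e₁, e₂]
      exact Ne.symm h0
    obtain ⟨g', hg'⟩ := hM (B.q y)
    obtain ⟨w, hw, rfl⟩ := hs (c₂, c₁) y' ⟨e₁ ▸ hy.2.1, e₂ ▸ hy.1, Or.inr h3⟩
    refine ⟨_, map_mem_ser (fun z hz => ?_) hw, (ten_swap_act h h1 h2 _ _ w).symm⟩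
    rw [mem_nS_iff (B.at_sub_off h3 (e₁ ▸ hg') (e₂ ▸ hg) j)] at hz
    rw [mem_nS_iff (B.at_sub_off h0 hg hg' j)]
    have h4 : z / (α g' * β g) ∈ (lp (Cns.mk h (B.q y) (B.p y))).O := by
      rw [← e₁, ← e₂, ← B.off y' h3]
      exact hz
    have h5 := (B.dom y).le (Bl.swap_mk h1 h2 _ _ h4)
    rwa [map_div₀, map_mul, h1, h2, mul_comm] at h5

/-- parity gives one more order of vanishing -/
theorem T.par (hM : M ∈ On S.P) (hs : s ∈ T D B (Gj α β S M j) 1)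
    (hτ : map (τ : L →+* L) s = C ((-1) ^ (j + 1)) * s) : s ∈ T D B (Gj α β S M (j + 1)) 1 := by
  rw [mem_T_one] at hs ⊢
  rintro ⟨c₁, c₂⟩ y hy
  obtain ⟨g, hg⟩ := hM (B.p y)
  obtain ⟨w, hw, rfl⟩ := hs _ y hy
  refine ⟨w, fun n => ?_, rfl⟩
  have hz := hw n
  by_cases h0 : B.p y = B.q y
  · obtain rfl : c₁ = c₂ := hy.2.2.resolve_right (not_not.2 h0)
    obtain ⟨a, H⟩ := B.exists_on h0
    have h3 : map (τ : L →+* L) w = C ((-1) ^ (j + 1)) * w := (Φ2 D h (c₁, c₁)).act_inj (by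
      rw [Mv.act_mul, Φ2, ← ten_swap_act h h1 h2]
      simpa [Φ2] using hτ)
    have h4 : τ (coeff n w) = (-1) ^ (j + 1) * coeff n w := by
      have h5 := congrArg (coeff n) h3
      rwa [coeff_C_mul, coeff_map] at h5
    rw [mem_nS_iff (H.at_sub hg j)] at hz
    rw [mem_nS_iff (H.at_sub hg (j + 1))]
    have h5 := (lp y).O.smul_mem (H.sub_swap h1 h2 hz) (2⁻¹ : ℂ)
    rw [map_div₀, h4, swap_gen h1 h2, pow_succ, mul_assoc ((-1 : L) ^ j),
      mul_div_mul_left _ _ (pow_ne_zero j (neg_ne_zero.2 (one_ne_zero (α := L)))), neg_one_mul,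
      neg_div, sub_neg_eq_add, ← two_smul ℂ, smul_div_assoc, smul_smul,
      inv_mul_cancel₀ two_ne_zero, one_smul, div_div, mul_assoc, ← pow_succ] at h5
    exact h5
  · obtain ⟨g', hg'⟩ := hM (B.q y)
    rw [mem_nS_iff (B.at_sub_off h0 hg hg' j)] at hz
    rwa [mem_nS_iff (B.at_sub_off h0 hg hg' (j + 1))]

end Crest.Agent.X262.Lift8
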